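import Claimed.Agent.R314.C.Aff.End

/-!
# Row 314, block C (chief helper97): Ricci flat + uniformly contractible cocompact ⟹ flat

EXIT CONTRACT `flat_of_ricFlat`.  Packages GEO (`C/Geo/Exit.lean`), SV (`C/SV/Exit.lean`), BUS (`C/Bus/Exit.lean`), REG' (`C/Reg/Exit.lean`), AFF (`C/Aff/*.lean`, helper97).
Uses `surj_of_bdd` (block T).

PROOF.  Fix `x₀`.  A maximal system `a_1, …, a_k` of affine functions with orthonormal gradients at `x₀` spans all affine functions modulo constants (`exists_max_sys`), `k ≤ n`.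
`k < n` is impossible (`AffSys.not_lt`), and `k = n` gives flatness (`AffSys.flat`).
-/

set_option autoImplicit false
open scoped ContDiff Topology
open Set Claims.C0499 Claimed.Agent.R315

namespace Claimed.Agent.R314

theorem flat_of_ricFlat {n N : ℕ} {X : Set (E N)} {g : Ten (E N)} (h : UCont n X g)
    (hR : RicFlat n X g) : Flat n X g := by
  obtain ⟨x₀, hx₀⟩ := h.conn.nonempty
  obtain ⟨k, a, e, hs, hsp⟩ := exists_max_sys h.toCM hx₀
  have h1 : k ≤ n := hs.le h.mfd hx₀
  have h2 : ¬ k < n := hs.not_lt h hR hx₀ hsp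
  obtain rfl : k = n := by omega
  exact hs.flat h.toCM hx₀

end Claimed.Agent.R314
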