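import Claimed.Agent.R314.Defs
import Claimed.Agent.R315.Pack008
import Claimed.Agent.Lib.Ell.Hopf

/-!
# Row 314, block C, package SMP (helper59): the Calabi-Hopf strong maximum principle

`u ≤ 0` continuous, sub-harmonic in the BARRIER sense (at every point `p` and for every `ε > 0` there is a smooth lower support
function `s ≤ u` near `p`, `s p = u p`, `Δ s (p) ≥ -ε`), `u x₀ = 0`  ⟹  `u = 0`.

* `smp_abs`   : the zero set is relatively open, for `ndOp a b 0` (language of `Lib/Ell`);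
* `smp_chart` : in a chart, for `lapC G`;
* `smp_mfd`   : on a connected manifold, for `lap n X g`.

Proof (Calabi): touching ball `ball x₁ ρ ⊆ {u < 0}`, `y` on its boundary with `u y = 0`; the half ball `ball x₂ σ`, `x₂ = (x₁+y)/2`, `σ = ρ/2`,
touches `{u = 0}` only at `y`.  Hopf's function `ψ = e^{-γ|x-x₂|²} - e^{-γσ²}` is strictly sub-harmonic near `y`.  On a small sphere around `y`:
`u + ε₀ ψ < 0`; at `y` it vanishes; so it has an interior maximum `q`; the support function `s` of `u` at `q` gives a `C²` function `s + ε₀ ψ`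
with a local maximum at `q` and positive `L`: contradiction.
-/

set_option autoImplicit false
open scoped ContDiff Topology RealInnerProductSpace
open Set Metric Filter Claims.C0499 Claimed.Agent.R315 Claimed.Agent.Lib.Ell

namespace Claimed.Agent.R314

section abs

variable {W : Type} [NormedAddCommGroup W] [InnerProductSpace ℝ W] [FiniteDimensional ℝ W]

/-- Hopf's function. -/
noncomputable def smpPsi (γ σ : ℝ) (x₂ : W) (z : W) : ℝ :=
  Real.exp (-γ * ‖z - x₂‖ ^ 2) - Real.exp (-γ * σ ^ 2)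

theorem smpPsi_contDiff (γ σ : ℝ) (x₂ : W) : ContDiff ℝ 2 (smpPsi γ σ x₂) :=
  (Real.contDiff_exp.comp (ell_gauss_contDiff x₂ γ)).sub contDiff_const

theorem smpPsi_le_one {γ : ℝ} (hγ : 0 < γ) (σ : ℝ) (x₂ z : W) : smpPsi γ σ x₂ z ≤ 1 := by
  unfold smpPsi
  have h1 : Real.exp (-γ * ‖z - x₂‖ ^ 2) ≤ 1 := by
    rw [Real.exp_le_one_iff]
    have : 0 ≤ γ * ‖z - x₂‖ ^ 2 := by positivity
    linarith
  have h2 := Real.exp_pos (-γ * σ ^ 2)
  linarith

theorem smpPsi_neg {γ σ : ℝ} (hγ : 0 < γ) (hσ : 0 < σ) {x₂ z : W} (h : σ < ‖z - x₂‖) :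
    smpPsi γ σ x₂ z < 0 := by
  unfold smpPsi
  rw [sub_neg, Real.exp_lt_exp]
  have : σ ^ 2 < ‖z - x₂‖ ^ 2 := by gcongr
  nlinarith

theorem smpPsi_zero {γ σ : ℝ} {x₂ z : W} (h : ‖z - x₂‖ = σ) : smpPsi γ σ x₂ z = 0 := by
  unfold smpPsi
  rw [h, sub_self]

/-- changing the additive constant does not change `ndOp a b 0`. -/
theorem smpPsi_ndOp (a : W → W →L[ℝ] W) (b : W → W) (γ σ σ' : ℝ) (x₂ x : W) :
    ndOp a b (fun _ => 0) (smpPsi γ σ x₂) x = ndOp a b (fun _ => 0) (smpPsi γ σ' x₂) x := by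
  have h : smpPsi γ σ x₂ = fun z => smpPsi γ σ' x₂ z +
      (fun _ : W => Real.exp (-γ * σ' ^ 2) - Real.exp (-γ * σ ^ 2)) z := by
    funext z
    unfold smpPsi
    ring
  rw [h, ell_ndOp_add (smpPsi_contDiff γ σ' x₂).contDiffAt contDiffAt_const, ell_ndOp_const]
  simp

/-- **Calabi-Hopf**, abstract form: the zero set of a nonpositive barrier subsolution is open. -/
theorem smp_abs {U : Set W} (hU : IsOpen U) {a : W → W →L[ℝ] W} {b : W → W} {u : W → ℝ}
    (hloc : ∀ x ∈ U, ∃ r > 0, ∃ lam > 0, ∃ Lam K : ℝ, EllOn lam Lam (ball x r) a ∧ BdOn K (ball x r) b)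
    (hu : ContinuousOn u U) (hle : ∀ x ∈ U, u x ≤ 0)
    (hbar : ∀ p ∈ U, ∀ ε > 0, ∃ s : W → ℝ, ContDiffAt ℝ 2 s p ∧ s p = u p ∧ (∀ᶠ y in 𝓝 p, s y ≤ u y) ∧
      -ε ≤ ndOp a b (fun _ => 0) s p) :
    IsOpen {x | x ∈ U ∧ u x = 0} := by
  rw [Metric.isOpen_iff]
  rintro z ⟨hzU, huz⟩
  obtain ⟨r₀, hr₀, lam, hlam, Lam, K, hEa, hEb⟩ := hloc z hzU
  obtain ⟨δ, hδ, hδU⟩ := Metric.isOpen_iff.1 hU z hzU
  set r : ℝ := min r₀ δ / 4 with hr
  have hmin : 0 < min r₀ δ := lt_min hr₀ hδ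
  have hr0 : 0 < r := by positivity
  have h2r : 2 * r < min r₀ δ := by rw [hr]; linarith
  have hBsub : closedBall z (2 * r) ⊆ U ∩ ball z r₀ := by
    intro x hx
    rw [mem_closedBall] at hx
    exact ⟨hδU (by rw [mem_ball]; linarith [min_le_right r₀ δ]), by rw [mem_ball]; linarith [min_le_left r₀ δ]⟩
  refine ⟨r, hr0, ?_⟩
  intro x₁ hx₁
  by_contra hcon
  set Z : Set W := {x | x ∈ U ∧ u x = 0} with hZ
  have hZcl : IsClosed (Z ∩ closedBall z (2 * r)) := by
    have h1 : Z ∩ closedBall z (2 * r) = closedBall z (2 * r) ∩ u ⁻¹' {0} := by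
      ext x
      constructor
      · rintro ⟨⟨-, h2⟩, h3⟩; exact ⟨h3, h2⟩
      · rintro ⟨h3, h2⟩; exact ⟨⟨(hBsub h3).1, h2⟩, h3⟩
    rw [h1]
    exact (hu.mono (fun x hx => (hBsub hx).1)).preimage_isClosed_of_isClosed isClosed_closedBall
      isClosed_singleton
  obtain ⟨ρ, hρ, y, hyZ, hyn, hBρ, hnZ⟩ := ell_touching_ball hr0 hBsub hZcl ⟨hzU, huz⟩ hx₁ hcon
  -- the open set where the coefficients are controlled
  have hO : IsOpen (U ∩ ball z r₀) := hU.inter isOpen_ball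
  have hyO : y ∈ U ∩ ball z r₀ := hBρ (by rw [mem_closedBall, dist_eq_norm, hyn])
  -- the half ball
  set σ : ℝ := ρ / 2 with hσ
  have hσ0 : 0 < σ := by positivity
  set x₂ : W := x₁ + (1 / 2 : ℝ) • (y - x₁) with hx₂
  have hy2 : y - x₂ = (1 / 2 : ℝ) • (y - x₁) := by
    rw [hx₂]
    have : y - (x₁ + (1 / 2 : ℝ) • (y - x₁)) = (y - x₁) - (1 / 2 : ℝ) • (y - x₁) := by abel
    rw [this]
    have h1 : (y - x₁) - (1 / 2 : ℝ) • (y - x₁) = ((1 : ℝ) - 1 / 2) • (y - x₁) := by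
      rw [sub_smul, one_smul]
    rw [h1]; norm_num
  have hyσ : ‖y - x₂‖ = σ := by
    rw [hy2, norm_smul, hyn, hσ]; norm_num; ring
  have h21 : ‖x₂ - x₁‖ = σ := by
    have : x₂ - x₁ = (1 / 2 : ℝ) • (y - x₁) := by rw [hx₂]; abel
    rw [this, norm_smul, hyn, hσ]; norm_num; ring
  -- points of the closed half ball other than `y` are in the open ball
  have hhalf : ∀ x, ‖x - x₂‖ ≤ σ → x ≠ y → x ∈ ball x₁ ρ := by
    intro x hx hxy
    rw [mem_ball, dist_eq_norm]
    have htri : ‖x - x₁‖ ≤ ‖x - x₂‖ + ‖x₂ - x₁‖ := by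
      have : x - x₁ = (x - x₂) + (x₂ - x₁) := by abel
      rw [this]; exact norm_add_le _ _
    rcases lt_or_eq_of_le (htri.trans (by linarith : ‖x - x₂‖ + ‖x₂ - x₁‖ ≤ ρ)) with h | h
    · exact h
    · exfalso
      -- equality in the triangle inequality
      have hx2 : ‖x - x₂‖ = σ := by linarith
      have heq : ‖(x - x₂) + (x₂ - x₁)‖ = ‖x - x₂‖ + ‖x₂ - x₁‖ := by
        have : (x - x₂) + (x₂ - x₁) = x - x₁ := by abel
        rw [this, h, hx2, h21, hσ]; ring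
      have hray : SameRay ℝ (x - x₂) (x₂ - x₁) := sameRay_iff_norm_add.2 heq
      have h3 : x - x₂ = x₂ - x₁ := by
        have := hray.norm_smul_eq
        rw [hx2, h21] at this
        exact (smul_right_injective W hσ0.ne' this).symm ▸ rfl
      apply hxy
      have h4 : x₂ - x₁ = y - x₂ := by
        rw [hy2, hx₂]; abel
      have : x - x₂ = y - x₂ := h3.trans h4
      exact sub_left_injective this
  -- the barrier
  obtain ⟨γ, hγ, hbarr⟩ := ell_hopf_barrier (W := W) (lam := lam) (Lam := Lam) (K := K) (ρ := 3 / 2 * σ) hlam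
    (by positivity)
  set ψ : W → ℝ := smpPsi γ σ x₂ with hψ
  -- the small ball around `y`
  obtain ⟨η₀, hη₀, hη₀O⟩ := Metric.isOpen_iff.1 hO y hyO
  set η : ℝ := min (η₀ / 2) (σ / 4) with hη
  have hη0 : 0 < η := lt_min (by positivity) (by positivity)
  have hηO : closedBall y η ⊆ U ∩ ball z r₀ := by
    intro x hx
    apply hη₀O
    rw [mem_closedBall] at hx
    rw [mem_ball]
    have := min_le_left (η₀ / 2) (σ / 4)
    linarith
  have hψpos : ∀ x ∈ closedBall y η, 0 < ndOp a b (fun _ => 0) ψ x := by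
    intro x hx
    have hxO := hηO hx
    rw [mem_closedBall, dist_eq_norm] at hx
    have hη4 : η ≤ σ / 4 := min_le_right _ _
    have e1 : ‖x - x₂‖ ≤ ‖x - y‖ + ‖y - x₂‖ := by
      have : x - x₂ = (x - y) + (y - x₂) := by abel
      rw [this]; exact norm_add_le _ _
    have e2 : ‖y - x₂‖ ≤ ‖x - y‖ + ‖x - x₂‖ := by
      have : y - x₂ = -(x - y) + (x - x₂) := by abel
      rw [this]
      refine (norm_add_le _ _).trans ?_
      rw [norm_neg]
    have hK : ‖b x‖ ≤ K := hEb x hxO.2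
    have := hbarr a b (fun _ => 0) x₂ x (hEa x hxO.2) hK
      (by simpa using (norm_nonneg _).trans hK) le_rfl (by linarith) (by linarith)
    rw [hψ, smpPsi_ndOp a b γ σ (3 / 2 * σ) x₂ x]
    exact this
  -- `u < 0` on the part of the sphere inside the closed half ball
  have hneg : ∀ x, ‖x - x₂‖ ≤ σ → x ≠ y → x ∈ U → u x < 0 := by
    intro x hx hxy hxU
    exact lt_of_le_of_ne (hle x hxU) fun h => hnZ x (hhalf x hx hxy) ⟨hxU, h⟩
  set S₁ : Set W := sphere y η ∩ closedBall x₂ σ with hS₁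
  have hS₁c : IsCompact S₁ := (isCompact_sphere y η).inter_right isClosed_closedBall
  have hS₁U : S₁ ⊆ U := fun x hx => (hηO (sphere_subset_closedBall hx.1)).1
  obtain ⟨m, hm, hmS⟩ : ∃ m > 0, ∀ x ∈ S₁, u x ≤ -m := by
    rcases S₁.eq_empty_or_nonempty with h | h
    · exact ⟨1, one_pos, fun x hx => by rw [h] at hx; exact hx.elim⟩
    · obtain ⟨x₀, hx₀, hmax⟩ := hS₁c.exists_isMaxOn h (hu.mono hS₁U)
      have hx₀y : x₀ ≠ y := by
        rintro rfl
        have := hx₀.1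
        rw [mem_sphere, dist_self] at this
        linarith
      have h1 : u x₀ < 0 := hneg x₀ (by simpa [dist_eq_norm] using hx₀.2) hx₀y (hS₁U hx₀)
      exact ⟨-u x₀, by linarith, fun x hx => by have := hmax hx; simp only [neg_neg]; exact this⟩
  set ε₀ : ℝ := m / 2 with hε₀
  have hε₀0 : 0 < ε₀ := by positivity
  set v : W → ℝ := fun x => u x + ε₀ * ψ x with hv
  have hvS : ∀ x ∈ sphere y η, v x < 0 := by
    intro x hx
    have hxU : x ∈ U := (hηO (sphere_subset_closedBall hx)).1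
    by_cases hxb : ‖x - x₂‖ ≤ σ
    · have h1 := hmS x ⟨hx, by simpa [dist_eq_norm] using hxb⟩
      have h2 := smpPsi_le_one hγ σ x₂ x
      have h3 : ε₀ * ψ x ≤ ε₀ * 1 := mul_le_mul_of_nonneg_left h2 hε₀0.le
      simp only [hv]
      linarith
    · have h1 := smpPsi_neg hγ hσ0 (not_le.1 hxb)
      have h2 := hle x hxU
      have h3 : ε₀ * ψ x < 0 := mul_neg_of_pos_of_neg hε₀0 h1
      simp only [hv]
      linarith
  have hvy : v y = 0 := by
    simp only [hv, hψ]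
    rw [hyZ.2, smpPsi_zero hyσ]; ring
  have hvc : ContinuousOn v (closedBall y η) :=
    (hu.mono fun x hx => (hηO hx).1).add
      (continuousOn_const.mul (smpPsi_contDiff γ σ x₂).continuous.continuousOn)
  obtain ⟨q, hq, hqmax⟩ := (isCompact_closedBall y η).exists_isMaxOn
    ⟨y, mem_closedBall_self hη0.le⟩ hvc
  have hvq : 0 ≤ v q := by
    have : v y ≤ v q := hqmax (mem_closedBall_self hη0.le)
    rw [hvy] at this
    exact this
  have hqb : q ∈ ball y η := by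
    rw [mem_closedBall] at hq
    rw [mem_ball]
    rcases lt_or_eq_of_le hq with h | h
    · exact h
    · exact absurd (hvS q h) (not_lt.2 hvq)
  have hqU : q ∈ U := (hηO hq).1
  have hP := hψpos q hq
  obtain ⟨s, hs2, hsq, hsle, hsL⟩ := hbar q hqU (ε₀ * ndOp a b (fun _ => 0) ψ q / 2) (by positivity)
  have hψ2 : ContDiffAt ℝ 2 (fun x => ε₀ * ψ x) q :=
    contDiffAt_const.mul (smpPsi_contDiff γ σ x₂).contDiffAt
  have hlm : IsLocalMax (fun x => s x + (fun x => ε₀ * ψ x) x) q := by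
    filter_upwards [hsle, isOpen_ball.mem_nhds hqb] with x hx hxb
    have h1 : u x + ε₀ * ψ x ≤ u q + ε₀ * ψ q := hqmax (ball_subset_closedBall hxb)
    show s x + ε₀ * ψ x ≤ s q + ε₀ * ψ q
    rw [hsq]
    linarith
  have hEq := hEa q (hηO hq).2
  have hfin := ell_ndOp_nonpos_of_isLocalMax (a := a) (b := b) (c := fun _ => 0) hEq.1
    (fun ξ => le_trans (by positivity) (hEq.2.1 ξ)) le_rfl (hs2.add hψ2) hlm
    (by show 0 ≤ s q + ε₀ * ψ q; rw [hsq]; exact hvq)
  rw [ell_ndOp_add hs2 hψ2, ell_ndOp_const_mul ε₀ (smpPsi_contDiff γ σ x₂).contDiffAt] at hfin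
  have : 0 < ε₀ * ndOp a b (fun _ => 0) ψ q := by positivity
  linarith

end abs

/-! ## the chart version -/

section chart

variable {d : ℕ}

/-- the operator of a matrix. -/
noncomputable def smpOp (M : Fin d → Fin d → ℝ) : E d →L[ℝ] E d :=
  ∑ i, ∑ j, M i j • (EuclideanSpace.proj j : E d →L[ℝ] ℝ).smulRight (eb i)

theorem smpOp_apply (M : Fin d → Fin d → ℝ) (ζ : E d) :
    smpOp M ζ = ∑ i, ∑ j, (M i j * ζ j) • eb i := by
  simp [smpOp, smul_smul]

theorem smpOp_inner (M : Fin d → Fin d → ℝ) (ζ η : E d) :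
    inner ℝ (smpOp M ζ) η = ∑ i, ∑ j, M i j * ζ j * η i := by
  rw [smpOp_apply, sum_inner]
  refine Finset.sum_congr rfl fun i _ => ?_
  rw [sum_inner]
  refine Finset.sum_congr rfl fun j _ => ?_
  rw [inner_smul_left, EuclideanSpace.inner_single_left]
  simp

theorem smpOp_tr (M : Fin d → Fin d → ℝ) (H : E d →L[ℝ] E d →L[ℝ] ℝ) :
    ellTr (smpOp M) H = ∑ i, ∑ j, M i j * H (eb i) (eb j) := by
  rw [ellTr_eq_sum (EuclideanSpace.basisFun (Fin d) ℝ), Finset.sum_comm]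
  refine Finset.sum_congr rfl fun k _ => ?_
  rw [EuclideanSpace.basisFun_apply, smpOp_apply]
  simp only [map_sum, sum_apply, map_smul, smul_apply, smul_eq_mul]
  refine Finset.sum_congr rfl fun i _ => ?_
  rw [Finset.sum_eq_single k]
  · simp
  · intro j _ hj
    simp [hj]
  · simp

theorem smpOp_symm {M : Fin d → Fin d → ℝ} (hM : ∀ i j, M i j = M j i) (ξ η : E d) :
    inner ℝ (smpOp M ξ) η = inner ℝ ξ (smpOp M η) := by
  rw [real_inner_comm (smpOp M η) ξ, smpOp_inner, smpOp_inner, Finset.sum_comm]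
  exact Finset.sum_congr rfl fun i _ => Finset.sum_congr rfl fun j _ => by rw [hM j i]; ring

theorem smpOp_continuousOn {X : Type} [TopologicalSpace X] {S : Set X}
    {M : X → Fin d → Fin d → ℝ} (hM : ∀ i j, ContinuousOn (fun x => M x i j) S) :
    ContinuousOn (fun x => smpOp (M x)) S := by
  unfold smpOp
  refine continuousOn_finsetSum _ fun i _ => continuousOn_finsetSum _ fun j _ => ?_
  exact (hM i j).smul continuousOn_const

theorem smp_d2 {f : E d → ℝ} {u : E d} (hc : ContDiffAt ℝ 2 f u) (a b : Fin d) :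
    ellD2 f u (eb a) (eb b) = pdiff (fun w => pdiff f b w) a u := by
  have h1 : DifferentiableAt ℝ (fderiv ℝ f) u :=
    (hc.fderiv_right (m := 1) (by norm_num)).differentiableAt (by norm_num)
  unfold pdiff ellD2
  have := (h1.hasFDerivAt.clm_apply (hasFDerivAt_const (eb b) u)).fderiv
  rw [this]; simp

theorem smp_pdiff_diff {f : E d → ℝ} {u : E d} (hc : ContDiffAt ℝ 2 f u) (b : Fin d) :
    DifferentiableAt ℝ (fun w => pdiff f b w) u := by
  have h1 : DifferentiableAt ℝ (fderiv ℝ f) u :=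
    (hc.fderiv_right (m := 1) (by norm_num)).differentiableAt (by norm_num)
  unfold pdiff
  exact h1.clm_apply (differentiableAt_const _)

/-- principal coefficients of the Laplace-Beltrami operator. -/
noncomputable def smpA (G : rm_MF d) (x : E d) : E d →L[ℝ] E d := smpOp fun i j => (G x)⁻¹ i j

/-- first order coefficients of the Laplace-Beltrami operator. -/
noncomputable def smpB (G : rm_MF d) (x : E d) : E d :=
  - ∑ k, (∑ i, ∑ j, (G x)⁻¹ i j * christoffel G x k i j) • eb k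

theorem smp_lapC_eq {G : rm_MF d} {U : Set (E d)} (hG : rm_Met G U) {p : E d} (hp : p ∈ U)
    {s : E d → ℝ} (hs : ContDiffAt ℝ 2 s p) :
    lapC G s p = ndOp (smpA G) (smpB G) (fun _ => 0) s p := by
  rw [rm_lapC_eq_pt hG hp (smp_pdiff_diff hs)]
  unfold ndOp smpA smpB hessC
  rw [smpOp_tr]
  simp only [smp_d2 hs, map_neg, map_sum, map_smul, smul_eq_mul, zero_mul, add_zero, mul_sub,
    Finset.sum_sub_distrib]
  rw [sub_eq_add_neg]
  congr 2
  have : ∀ k, fderiv ℝ s p (eb k) = pdiff s k p := fun k => rfl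
  simp only [this, Finset.mul_sum, Finset.sum_mul]
  rw [rm_sum3_rot]
  exact Finset.sum_congr rfl fun k _ => Finset.sum_congr rfl fun i _ =>
    Finset.sum_congr rfl fun j _ => by ring

theorem smp_loc {G : rm_MF d} {U : Set (E d)} (hG : rm_Met G U) :
    ∀ x ∈ U, ∃ r > 0, ∃ lam > 0, ∃ Lam K : ℝ, EllOn lam Lam (ball x r) (smpA G) ∧
      BdOn K (ball x r) (smpB G) := by
  have ha : ContinuousOn (smpA G) U :=
    smpOp_continuousOn fun i j => (rm_inv_smooth hG i j).continuousOn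
  have hb : ContinuousOn (smpB G) U := by
    have h1 : ∀ k : Fin d, ContinuousOn
        (fun x => ∑ i, ∑ j, (G x)⁻¹ i j * christoffel G x k i j) U := fun k =>
      continuousOn_finsetSum _ fun i _ => continuousOn_finsetSum _ fun j _ =>
        (rm_inv_smooth hG i j).continuousOn.mul (rm_christoffel_smooth hG k i j).continuousOn
    have h2 : ContinuousOn
        (fun x => ∑ k, (∑ i, ∑ j, (G x)⁻¹ i j * christoffel G x k i j) • (eb k : E d)) U :=
      continuousOn_finsetSum _ fun k _ => (h1 k).smul continuousOn_const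
    exact h2.neg
  intro x hx
  obtain ⟨r, hr, lam, hlam, Lam, K, h1, h2, -⟩ := ell_loc_of_continuousOn hG.opn ha hb
    (continuousOn_const (c := (0 : ℝ)))
    (fun y hy ξ η => smpOp_symm (fun i j => rm_inv_symm hG hy i j) ξ η)
    (fun y hy ξ hξ => by
      unfold smpA
      rw [smpOp_inner]
      have hξ' : (fun i => ξ i) ≠ (0 : Fin d → ℝ) := by
        intro h
        apply hξ
        ext i
        exact congrFun h i
      have := (rm_inv_pos hG hy).dotProduct_mulVec_pos hξ'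
      simp only [star_trivial, dotProduct, Matrix.mulVec, Finset.mul_sum] at this
      refine lt_of_lt_of_eq this ?_
      exact Finset.sum_congr rfl fun i _ => Finset.sum_congr rfl fun j _ => by ring) x hx
  exact ⟨r, hr, lam, hlam, Lam, K, h1, h2⟩

/-- **Calabi-Hopf in a chart** (supports of class `C²` at the point). -/
theorem smp_chart2 {G : rm_MF d} {U : Set (E d)} (hG : rm_Met G U) {u : E d → ℝ}
    (hu : ContinuousOn u U) (hle : ∀ x ∈ U, u x ≤ 0)
    (hbar : ∀ p ∈ U, ∀ ε > 0, ∃ s : E d → ℝ, ContDiffAt ℝ 2 s p ∧ s p = u p ∧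
      (∀ᶠ y in 𝓝 p, s y ≤ u y) ∧ -ε ≤ lapC G s p)
    {x0 : E d} (hx0 : x0 ∈ U) (h0 : u x0 = 0) : ∀ᶠ x in 𝓝 x0, u x = 0 := by
  have hopen := smp_abs hG.opn (smp_loc hG) hu hle (fun p hp ε hε => by
    obtain ⟨s, h1, h2, h3, h4⟩ := hbar p hp ε hε
    exact ⟨s, h1, h2, h3, by rw [← smp_lapC_eq hG hp h1]; exact h4⟩)
  filter_upwards [hopen.mem_nhds ⟨hx0, h0⟩] with x hx
  exact hx.2

/-- **Calabi-Hopf in a chart** (smooth supports). -/
theorem smp_chart {G : rm_MF d} {U : Set (E d)} (hG : rm_Met G U) {u : E d → ℝ}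
    (hu : ContinuousOn u U) (hle : ∀ x ∈ U, u x ≤ 0)
    (hbar : ∀ p ∈ U, ∀ ε > 0, ∃ s : E d → ℝ, (∃ W ∈ 𝓝 p, ContDiffOn ℝ ∞ s W) ∧ s p = u p ∧
      (∀ᶠ y in 𝓝 p, s y ≤ u y) ∧ -ε ≤ lapC G s p)
    {x0 : E d} (hx0 : x0 ∈ U) (h0 : u x0 = 0) : ∀ᶠ x in 𝓝 x0, u x = 0 :=
  smp_chart2 hG hu hle (fun p hp ε hε => by
    obtain ⟨s, ⟨W, hW, hs⟩, h2, h3, h4⟩ := hbar p hp ε hε
    exact ⟨s, (hs.contDiffAt hW).of_le rm_two_le, h2, h3, h4⟩) hx0 h0

end chart

/-! ## the manifold version -/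

section mfd

variable {V : Type} [NormedAddCommGroup V] [NormedSpace ℝ V]

/-- **Calabi-Hopf strong maximum principle** on a connected Riemannian manifold. -/
theorem smp_mfd {n : ℕ} [FiniteDimensional ℝ V] {X : Set V} {g : Ten V} (hX : IsMfd n X)
    (hconn : IsPreconnected X) (hg : IsMetricOn n X g) {u : V → ℝ} (hu : ContinuousOn u X)
    (hle : ∀ x ∈ X, u x ≤ 0)
    (hbar : ∀ p ∈ X, ∀ ε > 0, ∃ s : V → ℝ, SmoothAlong n X s ∧ s p = u p ∧
      (∀ᶠ y in 𝓝[X] p, s y ≤ u y) ∧ -ε ≤ lap n X g s p)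
    {x0 : V} (hx0 : x0 ∈ X) (h0 : u x0 = 0) : ∀ x ∈ X, u x = 0 := by
  -- the zero set is relatively open
  have hloc : ∀ x ∈ X, u x = 0 → ∃ O : Set V, IsOpen O ∧ x ∈ O ∧ ∀ y ∈ X ∩ O, u y = 0 := by
    intro x hx hux
    obtain ⟨ψ, U, hp, w, hw, rfl⟩ := hX x hx
    have hG : rm_Met (cm g ψ) U := ⟨if_open hp, (hg ψ U hp).1, (hg ψ U hp).2⟩
    have hmaps : MapsTo ψ U X := fun a ha => if_mem hp ha
    have hev := smp_chart (u := u ∘ ψ) hG (hu.comp (if_continuousOn hp) hmaps)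
      (fun a ha => hle _ (hmaps ha))
      (fun p hpU ε hε => by
        obtain ⟨s, h1, h2, h3, h4⟩ := hbar (ψ p) (hmaps hpU) ε hε
        refine ⟨s ∘ ψ, ⟨U, (if_open hp).mem_nhds hpU, h1 ψ U hp⟩, h2, ?_, ?_⟩
        · have ht : Tendsto ψ (𝓝 p) (𝓝[X] (ψ p)) := by
            refine tendsto_nhdsWithin_iff.2 ⟨((if_continuousOn hp).continuousAt
              ((if_open hp).mem_nhds hpU)), ?_⟩
            filter_upwards [(if_open hp).mem_nhds hpU] with a ha
            exact hmaps ha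
          exact ht.eventually h3
        · rw [← if_lap_eq hg h1 hp hpU]
          exact h4) hw hux
    obtain ⟨W, hWsub, hWo, hwW⟩ := _root_.eventually_nhds_iff.1 hev
    have hW' : IsOpen (W ∩ U) := hWo.inter (if_open hp)
    obtain ⟨O, hO, hOeq⟩ := if_image (if_mono hp hW' inter_subset_right)
    refine ⟨O, hO, ?_, ?_⟩
    · have : ψ w ∈ X ∩ O := by rw [← hOeq]; exact ⟨w, ⟨hwW, hw⟩, rfl⟩
      exact this.2
    · intro y hy
      rw [← hOeq] at hy
      obtain ⟨a, ha, rfl⟩ := hy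
      exact hWsub a ha.1
  intro x hx
  by_contra hcon
  choose! O hO1 hO2 hO3 using hloc
  set O₁ : Set V := ⋃ y ∈ {y | y ∈ X ∧ u y = 0}, O y with hO₁
  have hO₁o : IsOpen O₁ := isOpen_biUnion fun y hy => hO1 y hy.1 hy.2
  obtain ⟨O₂, hO₂o, hO₂e⟩ := continuousOn_iff'.1 hu {0}ᶜ isOpen_compl_singleton
  obtain ⟨y, hyX, hy1, hy2⟩ := hconn O₁ O₂ hO₁o hO₂o
    (fun y hy => by
      by_cases h : u y = 0
      · exact Or.inl (mem_biUnion (show y ∈ {y | y ∈ X ∧ u y = 0} from ⟨hy, h⟩) (hO2 y hy h))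
      · have : y ∈ u ⁻¹' {0}ᶜ ∩ X := ⟨h, hy⟩
        rw [hO₂e] at this
        exact Or.inr this.1)
    ⟨x0, hx0, mem_biUnion (show x0 ∈ {y | y ∈ X ∧ u y = 0} from ⟨hx0, h0⟩) (hO2 x0 hx0 h0)⟩
    ⟨x, hx, by
      have : x ∈ u ⁻¹' {0}ᶜ ∩ X := ⟨hcon, hx⟩
      rw [hO₂e] at this
      exact this.1⟩
  obtain ⟨y', hy', hyO⟩ := mem_iUnion₂.1 hy1
  have h1 : u y = 0 := hO3 y' hy'.1 hy'.2 y ⟨hyX, hyO⟩
  have h2 : y ∈ u ⁻¹' {0}ᶜ ∩ X := by rw [hO₂e]; exact ⟨hy2, hyX⟩
  exact h2.1 h1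

end mfd

end Claimed.Agent.R314
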