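import Claimed.Agent.R314.Iso
import Claimed.Agent.R316.Base.RGeo.Defs

/-!
# Row 314, block C (chief helper97): definitions shared by the packages GEO, SV, BUS, REG', AFF

Language: R315 core (`E`, `Ten`, `IsParam`, `IsMfd`, `cm`, `rdist`, `IsMetricOn`, `IsProperOn`, `SmoothAlong`, `tder`, `if_Tan`, `if_bil`, `if_Gam`, `hessC`, `lap`)
and the chart calculus `R316.RGeo` (one chart, real Riemannian: `IsRiem`, `IsGeod`, `IsParallel`, `covD`, `curv`, `secNum`, `hess`, `pull`, exponential map, Jacobi fields ...), which is imported, not copied.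

* `CM n X g`      : complete connected Riemannian `n`-manifold, closed in the ambient space.
* `rgeo g ψ U`    : the `RGeo` of the parametrisation `(ψ, U)`: `G u = if_bil (cm g ψ u)`, `Γ = if_Gam (cm g ψ)` (Christoffel symbols of `Def_0499`).
* `IsSeg X g c S` : METRIC segment / ray / line (`S = Icc a b`, `Ici 0`, `univ`): `rdist (c s) (c t) = |s - t|`.  No smoothness.
* `IsGeo n X g γ I`, `IsPar n X g γ Y I` : geodesics and parallel fields as AMBIENT curves; the equations are required for all coordinate representatives.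
* `secA n X g x a b` : `Rm(a,b,b,a)` for ambient tangent vectors.
* `UpperSupp`, `LowerSupp` : support functions, GLOBALLY smooth along `X` (the producer multiplies by a cutoff).
* `HessLE n X g s x C` : `Hess s ≤ C g` at `x`;  `HessGE`.
* `IsAff n X g a` : smooth with vanishing Hessian.
* `Lip1 X g b` : `1`-Lipschitz for `rdist`.
-/

set_option autoImplicit false
open scoped ContDiff Topology
open Set Claims.C0499 Claimed.Agent.R315

namespace Claimed.Agent.R314

variable {V : Type} [NormedAddCommGroup V] [NormedSpace ℝ V]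

/-- complete connected Riemannian `n`-manifold, closed in the ambient space. -/
structure CM (n : ℕ) (X : Set V) (g : Ten V) : Prop where
  mfd : IsMfd n X
  closed : IsClosed X
  conn : IsConnected X
  met : IsMetricOn n X g
  proper : IsProperOn X g

theorem UCont.toCM {n : ℕ} {X : Set V} {g : Ten V} (h : UCont n X g) : CM n X g :=
  ⟨h.mfd, h.closed, h.conn, h.met, h.proper⟩

/-- the Riemannian chart data of the parametrisation `(ψ, U)`. -/
noncomputable def rgeo {n : ℕ} (g : Ten V) (ψ : E n → V) (U : Set (E n)) : R316.RGeo (E n) where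
  U := U
  G := fun u => if_bil (cm g ψ u)
  Γ := if_Gam (cm g ψ)

/-- metric segment (`S = Icc a b`), ray (`S = Ici 0`), line (`S = univ`). -/
def IsSeg (X : Set V) (g : Ten V) (c : ℝ → V) (S : Set ℝ) : Prop :=
  (∀ s ∈ S, c s ∈ X) ∧ ∀ s ∈ S, ∀ t ∈ S, rdist X g (c s) (c t) = |s - t|

/-- metric ray. -/
abbrev IsRay (X : Set V) (g : Ten V) (c : ℝ → V) : Prop := IsSeg X g c (Ici 0)

/-- metric line. -/
abbrev IsLine (X : Set V) (g : Ten V) (c : ℝ → V) : Prop := IsSeg X g c univ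

/-- `γ` (an ambient curve) is a geodesic of `(X, g)` on `I`: smooth, in `X`, and every coordinate representative solves the geodesic equation. -/
def IsGeo (n : ℕ) (X : Set V) (g : Ten V) (γ : ℝ → V) (I : Set ℝ) : Prop :=
  ContDiffOn ℝ ∞ γ I ∧ (∀ t ∈ I, γ t ∈ X) ∧
  ∀ (ψ : E n → V) (U : Set (E n)), IsParam X ψ U → ∀ (c : ℝ → E n) (I' : Set ℝ), I' ⊆ I →
    IsOpen I' → (∀ t ∈ I', c t ∈ U ∧ ψ (c t) = γ t) → (rgeo g ψ U).IsGeod c I'

/-- `Y` is a smooth parallel ambient tangent field along `γ` on `I`. -/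
def IsPar (n : ℕ) (X : Set V) (g : Ten V) (γ Y : ℝ → V) (I : Set ℝ) : Prop :=
  ContDiffOn ℝ ∞ Y I ∧ (∀ t ∈ I, Y t ∈ if_Tan n X (γ t)) ∧
  ∀ (ψ : E n → V) (U : Set (E n)), IsParam X ψ U → ∀ (c e : ℝ → E n) (I' : Set ℝ), I' ⊆ I →
    IsOpen I' → (∀ t ∈ I', c t ∈ U ∧ ψ (c t) = γ t ∧ fderiv ℝ ψ (c t) (e t) = Y t) →
      (rgeo g ψ U).IsParallel c e I'

/-- `Rm(a,b,b,a)` (sectional curvature numerator) of the ambient tangent vectors `a, b` at `x`
(`sSup` of a singleton, by invariance: `secA_eq`, package GEO). -/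
noncomputable def secA (n : ℕ) (X : Set V) (g : Ten V) (x a b : V) : ℝ :=
  sSup {r | ∃ (ψ : E n → V) (U : Set (E n)) (u A B : E n), IsParam X ψ U ∧ u ∈ U ∧ ψ u = x ∧
    fderiv ℝ ψ u A = a ∧ fderiv ℝ ψ u B = b ∧ r = (rgeo g ψ U).secNum u A B}

/-- `s` is a smooth upper support function of `f` at `x`. -/
structure UpperSupp (n : ℕ) (X : Set V) (f s : V → ℝ) (x : V) : Prop where
  smooth : SmoothAlong n X s
  le : ∀ᶠ y in 𝓝[X] x, f y ≤ s y
  eq : s x = f x

/-- `s` is a smooth lower support function of `f` at `x`. -/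
structure LowerSupp (n : ℕ) (X : Set V) (f s : V → ℝ) (x : V) : Prop where
  smooth : SmoothAlong n X s
  le : ∀ᶠ y in 𝓝[X] x, s y ≤ f y
  eq : s x = f x

/-- `Hess s ≤ C g` at `x`. -/
def HessLE (n : ℕ) (X : Set V) (g : Ten V) (s : V → ℝ) (x : V) (C : ℝ) : Prop :=
  ∀ (ψ : E n → V) (U : Set (E n)), IsParam X ψ U → ∀ u ∈ U, ψ u = x → ∀ A : E n,
    (rgeo g ψ U).hess (s ∘ ψ) u A A ≤ C * if_bil (cm g ψ u) A A

/-- `Hess s ≥ - C g` at `x`. -/
def HessGE (n : ℕ) (X : Set V) (g : Ten V) (s : V → ℝ) (x : V) (C : ℝ) : Prop :=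
  ∀ (ψ : E n → V) (U : Set (E n)), IsParam X ψ U → ∀ u ∈ U, ψ u = x → ∀ A : E n,
    -(C * if_bil (cm g ψ u) A A) ≤ (rgeo g ψ U).hess (s ∘ ψ) u A A

/-- affine function: smooth with vanishing Hessian. -/
def IsAff (n : ℕ) (X : Set V) (g : Ten V) (a : V → ℝ) : Prop :=
  SmoothAlong n X a ∧ ∀ (ψ : E n → V) (U : Set (E n)), IsParam X ψ U → ∀ u ∈ U, ∀ i j : Fin n,
    hessC (cm g ψ) (a ∘ ψ) u i j = 0

/-- `1`-Lipschitz for the Riemannian distance. -/
def Lip1 (X : Set V) (g : Ten V) (b : V → ℝ) : Prop :=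
  ∀ x ∈ X, ∀ y ∈ X, |b x - b y| ≤ rdist X g x y

end Claimed.Agent.R314
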