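-- KEEP
import Claimed.Agent.R314.C.Defs
import Claimed.Agent.R315.Pack008
import Claimed.Agent.R316.Base.RGeo.Basic

/-!
# Row 314, block C, file Trace (helper93): traces over a `G(u)`-orthonormal family, chart level

`G` a smooth positive definite matrix function on the open set `U ⊆ E n` (`rm_Met G U`), `trS G U = ⟨U, if_bil ∘ G, if_Gam G⟩ : R316.RGeo (E n)`
(`rgeo g ψ U = trS (cm g ψ) U` by `rfl`: `tr_rgeo`).   `TrOn G u A` : the family `A : Fin n → E n` is `G(u)`-orthonormal.

* (T3) `tr_hess_eb` : `hessC G f u i j = (trS G U).hess f u (eb i) (eb j)` (no hypothesis);  `tr_hess_eq` : `= if_hess (if_Gam G)` for `f` of class `C²` at `u`;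
       `tr_hess_expand`, `tr_hess_add_left/right`, `tr_hess_smul_left/right`, `tr_hess_symm`.
* `tr_onb_inv` : `∑_m A_m^i A_m^j = G^{ij}`;   `tr_trace` : `∑_m G(L A_m, A_m) = ∑_p (L e_p)^p`.
* (T2) `tr_lap` : `lapC G f u = ∑_m Hess f (A_m, A_m)`.
* (T1) `tr_ric` : `∑_m secNum u (A_m) B = ∑_{j,k} ricciCoord G u j k B^j B^k`.
* `tr_onb_exists`, `tr_onb_exists_unit` : orthonormal families exist (through a prescribed unit vector).
-/

set_option autoImplicit false
open scoped ContDiff Topology Matrix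
open Set Claims.C0499 Claimed.Agent.R315

namespace Claimed.Agent.R314

variable {n : ℕ}

/-- the chart data of a metric matrix. -/
noncomputable def trS (G : rm_MF n) (U : Set (E n)) : R316.RGeo (E n) where
  U := U
  G := fun u => if_bil (G u)
  Γ := if_Gam G

/-- `A` is a `G(u)`-orthonormal family. -/
def TrOn (G : rm_MF n) (u : E n) (A : Fin n → E n) : Prop :=
  ∀ a b, if_bil (G u) (A a) (A b) = if a = b then 1 else 0

theorem tr_eqns_cite : True := by
  have := @trS.eq_1
  have := @TrOn.eq_1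
  trivial

theorem tr_rgeo {V : Type} [NormedAddCommGroup V] [NormedSpace ℝ V] (g : Ten V) (ψ : E n → V)
    (U : Set (E n)) : rgeo g ψ U = trS (cm g ψ) U := rfl

variable {G : rm_MF n} {U : Set (E n)} {u : E n}

/-! ## (T3) the Hessian -/

theorem tr_hess_eb (G : rm_MF n) (U : Set (E n)) (f : E n → ℝ) (u : E n) (i j : Fin n) :
    hessC G f u i j = (trS G U).hess f u (eb i) (eb j) := by
  unfold hessC R316.RGeo.hess trS
  congr 1
  rw [if_clm_expand (fderiv ℝ f u)]
  exact Finset.sum_congr rfl fun k _ => by rw [if_Gam_eb]; rfl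

theorem tr_hess_eq (G : rm_MF n) (U : Set (E n)) {f : E n → ℝ} (hf : ContDiffAt ℝ 2 f u) (X Y : E n) :
    (trS G U).hess f u X Y = if_hess (if_Gam G) f u X Y := by
  have h1 : DifferentiableAt ℝ (fderiv ℝ f) u :=
    (hf.fderiv_right (m := 1) (by norm_num)).differentiableAt (by norm_num)
  unfold R316.RGeo.hess if_hess trS
  congr 1
  have := (h1.hasFDerivAt.clm_apply (hasFDerivAt_const Y u)).fderiv
  rw [this]; simp

theorem tr_hess_expand (G : rm_MF n) (U : Set (E n)) {f : E n → ℝ} (hf : ContDiffAt ℝ 2 f u) (X Y : E n) :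
    (trS G U).hess f u X Y = ∑ i, ∑ j, hessC G f u i j * (X i * Y j) := by
  rw [tr_hess_eq G U hf, ← if_hess_bil, if_bil_apply]
  exact Finset.sum_congr rfl fun i _ => Finset.sum_congr rfl fun j _ => by
    rw [Matrix.of_apply, if_hessC_eq hf]

theorem tr_hess_add_left (G : rm_MF n) (U : Set (E n)) (f : E n → ℝ) (u X X' Y : E n) :
    (trS G U).hess f u (X + X') Y = (trS G U).hess f u X Y + (trS G U).hess f u X' Y := by
  unfold R316.RGeo.hess
  simp only [map_add, add_apply]
  ring

theorem tr_hess_smul_left (G : rm_MF n) (U : Set (E n)) (f : E n → ℝ) (u : E n) (c : ℝ) (X Y : E n) :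
    (trS G U).hess f u (c • X) Y = c * (trS G U).hess f u X Y := by
  unfold R316.RGeo.hess
  simp only [map_smul, smul_apply, smul_eq_mul]
  ring

theorem tr_hess_add_right (G : rm_MF n) (U : Set (E n)) {f : E n → ℝ} (hf : ContDiffAt ℝ 2 f u)
    (X Y Y' : E n) :
    (trS G U).hess f u X (Y + Y') = (trS G U).hess f u X Y + (trS G U).hess f u X Y' := by
  simp only [tr_hess_eq G U hf, if_hess, map_add]
  ring

theorem tr_hess_smul_right (G : rm_MF n) (U : Set (E n)) {f : E n → ℝ} (hf : ContDiffAt ℝ 2 f u)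
    (c : ℝ) (X Y : E n) :
    (trS G U).hess f u X (c • Y) = c * (trS G U).hess f u X Y := by
  simp only [tr_hess_eq G U hf, if_hess, map_smul, smul_eq_mul]
  ring

theorem tr_hess_symm (hG : rm_Met G U) (hu : u ∈ U) {f : E n → ℝ} (hf : ContDiffOn ℝ ∞ f U) (X Y : E n) :
    (trS G U).hess f u X Y = (trS G U).hess f u Y X := by
  have h2 : ContDiffAt ℝ 2 f u := (hf.contDiffAt (hG.opn.mem_nhds hu)).of_le rm_two_le
  rw [tr_hess_expand G U h2, tr_hess_expand G U h2, Finset.sum_comm]
  exact Finset.sum_congr rfl fun i _ => Finset.sum_congr rfl fun j _ => by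
    rw [rm_hessC_symm hG hu hf j i]; ring

/-! ## orthonormal families -/

/-- `∑_m A_m^i A_m^j = G^{ij}`. -/
theorem tr_onb_inv {A : Fin n → E n} (hA : TrOn G u A) (i j : Fin n) :
    ∑ m, A m i * A m j = (G u)⁻¹ i j := by
  obtain ⟨P, hP⟩ : ∃ P : Matrix (Fin n) (Fin n) ℝ, P = Matrix.of fun m i => A m i := ⟨_, rfl⟩
  have h1 : P * (G u * Pᵀ) = 1 := by
    ext a b
    have := hA a b
    rw [if_bil_apply] at this
    rw [Matrix.one_apply, ← this]
    simp only [Matrix.mul_apply, Matrix.transpose_apply, hP, Matrix.of_apply, Finset.mul_sum]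
    exact Finset.sum_congr rfl fun i _ => Finset.sum_congr rfl fun j _ => by ring
  have h2 : G u * Pᵀ * P = 1 := mul_eq_one_comm.1 h1
  have h3 : (G u)⁻¹ = Pᵀ * P := Matrix.inv_eq_right_inv (by rw [← Matrix.mul_assoc]; exact h2)
  rw [h3]
  simp only [Matrix.mul_apply, Matrix.transpose_apply, hP, Matrix.of_apply]

/-- `∑_m B(A_m, A_m) = G^{ij} B_{ij}`. -/
theorem tr_sum_bil {A : Fin n → E n} (hA : TrOn G u A) (B : Fin n → Fin n → ℝ) :
    ∑ m, ∑ i, ∑ j, B i j * (A m i * A m j) = ∑ i, ∑ j, (G u)⁻¹ i j * B i j := by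
  simp only [← tr_onb_inv hA, Finset.sum_mul]
  rw [Finset.sum_comm]
  refine Finset.sum_congr rfl fun i _ => ?_
  rw [Finset.sum_comm]
  exact Finset.sum_congr rfl fun j _ => Finset.sum_congr rfl fun m _ => by ring

/-- the trace of a linear map, computed in a `G(u)`-orthonormal family. -/
theorem tr_trace (hG : rm_Met G U) (hu : u ∈ U) {A : Fin n → E n} (hA : TrOn G u A)
    (L : E n →ₗ[ℝ] E n) : ∑ m, if_bil (G u) (L (A m)) (A m) = ∑ p, L (eb p) p := by
  have hL : ∀ (X : E n) (k : Fin n), L X k = ∑ p, X p * L (eb p) k := by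
    intro X k
    conv_lhs => rw [← if_sum_eb X]
    simp only [map_sum, map_smul]
    simp
  have e1 : ∀ m, if_bil (G u) (L (A m)) (A m) =
      ∑ p, ∑ l, (∑ k, G u k l * L (eb p) k) * (A m p * A m l) := by
    intro m
    rw [if_bil_apply]
    simp only [hL (A m), Finset.sum_mul, Finset.mul_sum]
    rw [Finset.sum_comm]
    have : ∀ l, ∑ k, ∑ p, G u k l * (A m p * L (eb p) k * A m l) =
        ∑ p, ∑ k, G u k l * (A m p * L (eb p) k * A m l) := fun l => Finset.sum_comm
    simp only [this]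
    rw [Finset.sum_comm]
    exact Finset.sum_congr rfl fun p _ => Finset.sum_congr rfl fun l _ =>
      Finset.sum_congr rfl fun k _ => by ring
  simp only [e1]
  rw [tr_sum_bil hA (fun p l => ∑ k, G u k l * L (eb p) k)]
  refine Finset.sum_congr rfl fun p _ => ?_
  have e2 : ∑ l, (G u)⁻¹ p l * ∑ k, G u k l * L (eb p) k =
      ∑ k, (∑ l, (G u)⁻¹ p l * G u l k) * L (eb p) k := by
    simp only [Finset.mul_sum, Finset.sum_mul]
    rw [Finset.sum_comm]
    exact Finset.sum_congr rfl fun k _ => Finset.sum_congr rfl fun l _ => by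
      rw [(hG.pos u hu).isHermitian.apply k l |>.symm]; simp; ring
  rw [e2]
  have e3 : ∀ k, ∑ l, (G u)⁻¹ p l * G u l k = if p = k then 1 else 0 := by
    intro k
    have := congrFun (congrFun (Matrix.nonsing_inv_mul (G u) (rm_det_pos hG hu).ne'.isUnit) p) k
    rw [Matrix.mul_apply, Matrix.one_apply] at this
    exact this
  simp only [e3]
  simp

/-- orthonormal families exist. -/
theorem tr_onb_exists (hG : rm_Met G U) (hu : u ∈ U) : ∃ A : Fin n → E n, TrOn G u A := by
  obtain ⟨B, hB⟩ := rm_exists_factor (rm_inv_pos hG hu).posSemidef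
  have hdet : IsUnit (G u).det := (rm_det_pos hG hu).ne'.isUnit
  have h1 : G u * Bᵀ * B = 1 := by
    rw [Matrix.mul_assoc, ← hB]; exact Matrix.mul_nonsing_inv _ hdet
  have h2 : B * (G u * Bᵀ) = 1 := mul_eq_one_comm.1 h1
  refine ⟨fun m => WithLp.toLp 2 fun i => B m i, fun a b => ?_⟩
  rw [if_bil_apply, ← Matrix.one_apply, ← h2]
  simp only [Matrix.mul_apply, Matrix.transpose_apply, Finset.mul_sum]
  exact Finset.sum_congr rfl fun i _ => Finset.sum_congr rfl fun j _ => by ring

set_option warn.classDefReducibility false in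
/-- the inner product core of `G(u)`. -/
noncomputable def trCore (hG : rm_Met G U) (hu : u ∈ U) : InnerProductSpace.Core ℝ (E n) where
  inner := fun a b => if_bil (G u) a b
  conj_inner_symm := fun a b => by
    simpa using if_bil_symm (hG.pos u hu).isHermitian b a
  re_inner_nonneg := fun a => by
    rcases eq_or_ne a 0 with rfl | ha
    · simp
    · simpa using (rm_bil_pos (hG.pos u hu) ha).le
  add_left := fun a b c => by simp
  smul_left := fun a b r => by simp
  definite := fun a h => by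
    by_contra ha
    exact (rm_bil_pos (hG.pos u hu) ha).ne' h

/-- an orthonormal family through a prescribed unit vector. -/
theorem tr_onb_exists_unit (hG : rm_Met G U) (hu : u ∈ U) {A₀ : E n} (h0 : if_bil (G u) A₀ A₀ = 1) :
    ∃ (A : Fin n → E n) (i₀ : Fin n), TrOn G u A ∧ A i₀ = A₀ := by
  obtain ⟨e, i₀, h1, -, h3⟩ := (R316.RGeo.exists_onb_core (trCore hG hu)).2 A₀ h0
  have hn : Module.finrank ℝ (E n) = n := finrank_euclideanSpace_fin
  refine ⟨fun i => e (Fin.cast hn.symm i), Fin.cast hn i₀, fun a b => ?_, ?_⟩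
  · have := h1 (Fin.cast hn.symm a) (Fin.cast hn.symm b)
    have e1 : (Fin.cast hn.symm a = Fin.cast hn.symm b) ↔ a = b := by
      simp [Fin.ext_iff]
    simp only [e1] at this
    exact this
  · simpa using h3

theorem tr_eqns_cite2 : True := by
  have := @trCore.eq_1
  trivial

/-! ## (T2) the Laplacian -/

theorem tr_lap (hG : rm_Met G U) (hu : u ∈ U) {A : Fin n → E n} (hA : TrOn G u A) {f : E n → ℝ}
    (hf : ContDiffOn ℝ ∞ f U) : lapC G f u = ∑ m, (trS G U).hess f u (A m) (A m) := by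
  have h2 : ContDiffAt ℝ 2 f u := (hf.contDiffAt (hG.opn.mem_nhds hu)).of_le rm_two_le
  rw [rm_lapC_eq hG hu hf]
  simp only [tr_hess_expand G U h2]
  exact (tr_sum_bil hA (fun i j => hessC G f u i j)).symm

/-! ## (T1) the Ricci curvature -/

theorem tr_ric (hG : rm_Met G U) (hu : u ∈ U) {A : Fin n → E n} (hA : TrOn G u A) (B : E n) :
    ∑ m, (trS G U).secNum u (A m) B = ∑ j, ∑ k, ricciCoord G u j k * B j * B k := by
  have hd : ∀ k i j, DifferentiableAt ℝ (fun w => christoffel G w k i j) u := fun k i j =>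
    rm_da hG.opn (rm_christoffel_smooth hG k i j) hu
  have h1 : ∑ m, (trS G U).secNum u (A m) B = if_ric (if_Gam G) u B B := by
    have := tr_trace hG hu hA (if_curvL (if_Gam G) u B B)
    exact this
  rw [h1, ← if_ric_bil, if_bil_apply]
  exact Finset.sum_congr rfl fun j _ => Finset.sum_congr rfl fun k _ => by
    rw [Matrix.of_apply, if_ric_eb hd]; ring

end Claimed.Agent.R314
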