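import Claimed.Agent.R315.Pack006

/-!
# Row 314, block C: a chart with `n` independent affine functions is flat      (helper106, for helper97 / AFF)

CHART LEVEL.  `G` a smooth Riemannian metric matrix on the open set `U ⊆ E d` (`rm_Met G U`).
* `fc_hess_zero`   : `hessC G f = 0` on `U` means `∂_i ∂_j f = Γ^k_{ij} ∂_k f` on `U`.
* `fc_riem_pdiff`  : (Ricci identity) if `hessC G f = 0` on `U` then `∑_l R^l_{aij} ∂_l f = 0` on `U`.
* `fc_flat`        : `d` functions with vanishing Hessian on `U` and linearly independent differentials at `u` ⟹ `riemannCoord G u = 0`.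
-/

set_option autoImplicit false
open scoped ContDiff Topology
open Claims.C0499 Claimed.Agent.R315

namespace Claimed.Agent.R314

variable {d : ℕ} {G : rm_MF d} {U : Set (E d)} {u : E d}

theorem fc_hess_zero {f : E d → ℝ} (hH : ∀ w ∈ U, ∀ i j, hessC G f w i j = 0) {w : E d} (hw : w ∈ U) (i j : Fin d) :
    pdiff (fun w' => pdiff f j w') i w = ∑ k, christoffel G w k i j * pdiff f k w := by
  have := hH w hw i j
  unfold hessC at this
  linarith

/-- the third derivative of a function with vanishing Hessian -/
theorem fc_third (h : rm_Met G U) {f : E d → ℝ} (hf : ContDiffOn ℝ ∞ f U)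
    (hH : ∀ w ∈ U, ∀ i j, hessC G f w i j = 0) (hu : u ∈ U) (a i j : Fin d) :
    pdiff (fun w => pdiff (fun w' => pdiff f j w') i w) a u =
      ∑ l, (pdiff (fun w => christoffel G w l i j) a u + ∑ p, christoffel G u l a p * christoffel G u p i j) * pdiff f l u := by
  have hU := h.opn
  have hΓ : ∀ k i j, DifferentiableAt ℝ (fun w => christoffel G w k i j) u := fun k i j =>
    rm_da hU (rm_christoffel_smooth h k i j) hu
  have hp : ∀ k, DifferentiableAt ℝ (fun w => pdiff f k w) u := fun k => rm_da hU (rm_pdiff_smooth hU hf k) hu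
  rw [rm_pdiff_congr_on hU hu (fun w hw => fc_hess_zero hH hw i j),
    rm_pdiff_sum Finset.univ (fun k _ => rm_da_mul (hΓ k i j) (hp k))]
  have e : ∀ k, pdiff (fun w => christoffel G w k i j * pdiff f k w) a u
      = pdiff (fun w => christoffel G w k i j) a u * pdiff f k u
        + christoffel G u k i j * ∑ p, christoffel G u p a k * pdiff f p u := by
    intro k
    rw [rm_pdiff_mul (hΓ k i j) (hp k), fc_hess_zero hH hu a k]
  simp only [e, add_mul, Finset.sum_add_distrib]
  congr 1
  simp only [Finset.mul_sum, Finset.sum_mul]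
  rw [Finset.sum_comm]
  exact Finset.sum_congr rfl fun l _ => Finset.sum_congr rfl fun p _ => by ring

/-- **Ricci identity** for a function with vanishing Hessian -/
theorem fc_riem_pdiff (h : rm_Met G U) {f : E d → ℝ} (hf : ContDiffOn ℝ ∞ f U)
    (hH : ∀ w ∈ U, ∀ i j, hessC G f w i j = 0) (hu : u ∈ U) (a i j : Fin d) :
    ∑ l, riemannCoord G u l a i j * pdiff f l u = 0 := by
  have hs := rm_p2_symm h.opn (rm_pdiff_smooth h.opn hf j) hu a i
  unfold rm_p2 at hs
  rw [fc_third h hf hH hu a i j, fc_third h hf hH hu i a j] at hs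
  rw [← sub_eq_zero, ← Finset.sum_sub_distrib] at hs
  rw [← hs]
  refine Finset.sum_congr rfl fun l _ => ?_
  unfold riemannCoord
  rw [Finset.sum_sub_distrib]
  ring

/-- **`d` independent affine functions ⟹ flat** -/
theorem fc_flat (h : rm_Met G U) (f : Fin d → E d → ℝ) (hf : ∀ m, ContDiffOn ℝ ∞ (f m) U)
    (hH : ∀ m, ∀ w ∈ U, ∀ i j, hessC G (f m) w i j = 0) (hu : u ∈ U)
    (hli : ∀ c : Fin d → ℝ, (∀ i, ∑ m, c m * pdiff (f m) i u = 0) → c = 0) (l i j k : Fin d) :
    riemannCoord G u l i j k = 0 := by
  set D : Matrix (Fin d) (Fin d) ℝ := Matrix.of fun m a => pdiff (f m) a u with hD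
  have hinj : Function.Injective D.vecMul := by
    refine (injective_iff_map_eq_zero (Matrix.vecMulLinear D)).2 fun c hc => hli c fun a => ?_
    have := congrFun hc a
    simpa [Matrix.vecMul, dotProduct, hD] using this
  have hunit : IsUnit D := Matrix.vecMul_injective_iff_isUnit.1 hinj
  have hinj2 : Function.Injective D.mulVec := Matrix.mulVec_injective_iff_isUnit.2 hunit
  have hz : D.mulVec (fun l => riemannCoord G u l i j k) = D.mulVec 0 := by
    funext m
    have := fc_riem_pdiff h (hf m) (hH m) hu i j k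
    simp only [Matrix.mulVec_zero, Pi.zero_apply]
    rw [← this]
    simp only [Matrix.mulVec, dotProduct, hD, Matrix.of_apply]
    exact Finset.sum_congr rfl fun l _ => by ring
  exact congrFun (hinj2 hz) l

end Claimed.Agent.R314
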