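import Claimed.Agent.R316.Base.RGeo.Exp

/-!
# Row 314, block C, package GEO, local theory (helper153), part A: chart level

`gl_between` : in a uniformly normal neighbourhood of a chart, a point `y` "between" `z` and `w` lies on the radial geodesic from `z` to `w`.
`D` is any function which is given by the radial coordinate on small vectors and satisfies the triangle inequality (later: `rdist`).
Tools: Gauss lemma in the form `IsNormal.hasFDerivAt_sq`, equality in Cauchy-Schwarz, `IsGeod.rexp_eq`, `IsNormal.injOn`.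
-/

set_option autoImplicit false
set_option linter.unusedSectionVars false
set_option maxSynthPendingDepth 3
open scoped ContDiff Topology
open Claimed.Agent.R316 Claimed.Agent.R316.RGeo

namespace Claimed.Agent.R314

variable {W : Type} [NormedAddCommGroup W] [NormedSpace ℝ W] [FiniteDimensional ℝ W]
variable {S : RGeo W}

/-- equality in the Cauchy-Schwarz inequality. -/
theorem gl_cs_eq (hS : S.IsRiem) {x : W} (hx : x ∈ S.U) {A B : W} {α : ℝ} (hA : S.G x A A = α ^ 2)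
    (hB : S.G x B B = 1) (hAB : S.G x A B = α) : A = α • B := by
  have h0 : S.G x (A - α • B) (A - α • B) = 0 := by
    have hBA : S.G x B A = α := by rw [hS.G_symm x hx, hAB]
    simp only [map_sub, map_smul, _root_.sub_apply, _root_.smul_apply, smul_eq_mul, hA, hB,
      hAB, hBA]
    ring
  exact sub_eq_zero.1 ((hS.G_self_eq_zero hx).1 h0)

/-- the unit speed radial geodesic is defined for `|t| < ρ`. -/
theorem gl_mem_gdm {N : Set W} {ρ : ℝ} (hN : S.IsNormal N ρ) {x e : W} (hx : x ∈ N) (he : S.nrm x e = 1) {t : ℝ}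
    (ht : |t| < ρ) : (t, (x, e)) ∈ S.gdm := by
  rw [← mem_expDom_iff]
  refine hN.mem x hx _ ?_
  rw [nrm_smul, he, mul_one]
  exact ht

theorem gl_deriv_gfl (hS : S.IsRiem) {x e : W} {t : ℝ} (h : (t, (x, e)) ∈ S.gdm) :
    deriv (fun r => (S.gfl r (x, e)).1) t = (S.gfl t (x, e)).2 := (hS.hasDerivAt_gfl_fst h).deriv

theorem gl_nrm_gfl (hS : S.IsRiem) {x e : W} {t : ℝ} (h : (t, (x, e)) ∈ S.gdm) :
    S.nrm (S.gfl t (x, e)).1 (S.gfl t (x, e)).2 = S.nrm x e := by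
  simp only [nrm, hS.G_gfl h]

/-- the distance between two points of a unit speed radial geodesic. -/
theorem gl_dist_along (hS : S.IsRiem) {N : Set W} {ρ : ℝ} (hN : S.IsNormal N ρ) {D : W → W → ℝ}
    (hD1 : ∀ z ∈ N, ∀ v, 3 * S.nrm z v < ρ → D z (S.rexp z v) = S.nrm z v)
    {x e : W} (hx : x ∈ N) (he : S.nrm x e = 1) {τ β : ℝ} (h0 : 0 ≤ τ) (hτβ : τ ≤ β) (hβ : 3 * β < ρ)
    (hτN : (S.gfl τ (x, e)).1 ∈ N) :
    D (S.gfl τ (x, e)).1 (S.gfl β (x, e)).1 = β - τ := by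
  have hρ := hN.pos
  have hτm : (τ, (x, e)) ∈ S.gdm := gl_mem_gdm hN hx he (by rw [abs_of_nonneg h0]; linarith)
  have hβm : (β, (x, e)) ∈ S.gdm := gl_mem_gdm hN hx he (by rw [abs_of_nonneg (h0.trans hτβ)]; linarith)
  obtain ⟨-, h2, -⟩ := IsGeod.rexp_eq hS (hS.isOpen_gdm_times x e) (ordConnected_gdm_times S x e)
    (hS.isGeod_gfl x e) (t₀ := τ) (t := β) hτm hβm
  rw [gl_deriv_gfl hS hτm] at h2
  have h3 : S.nrm (S.gfl τ (x, e)).1 ((β - τ) • (S.gfl τ (x, e)).2) = β - τ := by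
    rw [nrm_smul, gl_nrm_gfl hS hτm, he, mul_one, abs_of_nonneg (by linarith)]
  have h4 := hD1 _ hτN ((β - τ) • (S.gfl τ (x, e)).2) (by rw [h3]; linarith)
  rw [h2, h3] at h4
  exact h4

/-- **between**. -/
theorem gl_between (hS : S.IsRiem) {N : Set W} {ρ : ℝ} (hN : S.IsNormal N ρ) {D : W → W → ℝ}
    (hD1 : ∀ z ∈ N, ∀ v, 3 * S.nrm z v < ρ → D z (S.rexp z v) = S.nrm z v)
    (hD2 : ∀ p ∈ S.U, ∀ q ∈ S.U, ∀ r ∈ S.U, D p r ≤ D p q + D q r)
    {z y u u' v : W} (hz : z ∈ N) (hy : y ∈ N) (hu : S.rexp z u = y) (hu' : S.rexp y u' = S.rexp z v)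
    (hv : 3 * S.nrm z v < ρ) (hsum : S.nrm z u + S.nrm y u' = S.nrm z v) (hu0 : 0 < S.nrm z u)
    (hu'0 : 0 < S.nrm y u') : u = (S.nrm z u / S.nrm z v) • v := by
  have hρ := hN.pos
  have hzU := hN.subset hz
  have hyU := hN.subset hy
  obtain ⟨α, hα⟩ : ∃ α, α = S.nrm z u := ⟨_, rfl⟩
  obtain ⟨β, hβ⟩ : ∃ β, β = S.nrm y u' := ⟨_, rfl⟩
  rw [← hα] at hu0 hsum ⊢
  rw [← hβ] at hu'0 hsum
  rw [← hsum] at hv ⊢
  -- unit vectors
  obtain ⟨e, he⟩ : ∃ e, e = α⁻¹ • u := ⟨_, rfl⟩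
  obtain ⟨e', he'⟩ : ∃ e', e' = β⁻¹ • u' := ⟨_, rfl⟩
  have hue : u = α • e := by rw [he, smul_smul, mul_inv_cancel₀ hu0.ne', one_smul]
  have hue' : u' = β • e' := by rw [he', smul_smul, mul_inv_cancel₀ hu'0.ne', one_smul]
  have hne : S.nrm z e = 1 := by
    rw [he, nrm_smul, ← hα, abs_of_pos (inv_pos.2 hu0), inv_mul_cancel₀ hu0.ne']
  have hne' : S.nrm y e' = 1 := by
    rw [he', nrm_smul, ← hβ, abs_of_pos (inv_pos.2 hu'0), inv_mul_cancel₀ hu'0.ne']
  have hGe' : S.G y e' e' = 1 := by rw [← hS.nrm_sq hyU, hne', one_pow]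
  have huρ : S.nrm z u < ρ := by rw [← hα]; linarith
  have hzu : (z, u) ∈ S.expDom := hN.mem z hz u huρ
  -- the curve `σ`
  have hσm : ∀ τ : ℝ, |τ| < ρ → (τ, (y, e')) ∈ S.gdm := fun τ hτ => gl_mem_gdm hN hy hne' hτ
  have hσ0m : ((0 : ℝ), (y, e')) ∈ S.gdm := hσm 0 (by simpa using hρ)
  have hσd : HasDerivAt (fun r => (S.gfl r (y, e')).1) e' 0 := by
    have := hS.hasDerivAt_gfl_fst hσ0m
    rwa [gfl_zero] at this
  have hσc : Filter.Tendsto (fun r => (S.gfl r (y, e')).1) (𝓝 0) (𝓝 y) := by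
    have := hσd.continuousAt.tendsto
    rwa [gfl_zero] at this
  have hσβ : (S.gfl β (y, e')).1 = S.rexp z v := by
    rw [← hS.rexp_smul (hσm β (by rw [abs_of_pos hu'0]; linarith)), ← hue', hu']
  have hDzy : D z y = α := by
    have := hD1 z hz u (by rw [← hα]; linarith)
    rwa [hu, ← hα] at this
  have hDzw : D z (S.rexp z v) = α + β := by
    have := hD1 z hz v (by rw [← hsum]; exact hv)
    rwa [← hsum] at this
  have hwU : S.rexp z v ∈ S.U := rexp_mem (hN.mem z hz v (by rw [← hsum]; linarith))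
  -- Claim A
  have hA : ∀ᶠ τ in 𝓝[>] (0 : ℝ), D z (S.gfl τ (y, e')).1 = α + τ := by
    have h1 : ∀ᶠ τ in 𝓝[>] (0 : ℝ), (S.gfl τ (y, e')).1 ∈ N :=
      (hσc.eventually (hN.isOpen.mem_nhds hy)).filter_mono nhdsWithin_le_nhds
    have h2 : ∀ᶠ τ in 𝓝[>] (0 : ℝ), τ < β := (gt_mem_nhds hu'0).filter_mono nhdsWithin_le_nhds
    filter_upwards [h1, h2, self_mem_nhdsWithin] with τ hτN hτβ hτ0
    have hτ0' : (0 : ℝ) < τ := hτ0
    have hy0 : (S.gfl 0 (y, e')).1 ∈ N := by rw [gfl_zero]; exact hy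
    have a1 := gl_dist_along hS hN hD1 hy hne' le_rfl hτ0'.le (by linarith) hy0
    rw [gfl_zero, sub_zero] at a1
    have a2 := gl_dist_along hS hN hD1 hy hne' hτ0'.le hτβ.le (by linarith) hτN
    rw [hσβ] at a2
    have a3 := hD2 z hzU y hyU _ (hN.subset hτN)
    have a4 := hD2 z hzU _ (hN.subset hτN) _ hwU
    simp only at a1
    linarith
  -- Claim B
  obtain ⟨inv, hinv⟩ : ∃ inv, inv = Function.invFunOn (S.rexp z) {v | S.nrm z v < ρ} := ⟨_, rfl⟩
  obtain ⟨-, -, -, -, hic, hiu⟩ := hN.inv_spec hS hz huρ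
  rw [← hinv, hu] at hic hiu
  have hB : ∀ᶠ p in 𝓝 y, D z p ^ 2 = S.G z (inv p) (inv p) := by
    have hcn : ContinuousAt (fun p => S.nrm z (inv p)) y := by
      have h1 : Continuous (fun a => S.nrm z a) := by
        unfold nrm
        exact ((S.G z).continuous.clm_apply continuous_id).sqrt
      exact h1.continuousAt.comp hic.continuousAt
    have h2 : ∀ᶠ p in 𝓝 y, 3 * S.nrm z (inv p) < ρ := by
      have : ContinuousAt (fun p => 3 * S.nrm z (inv p)) y := continuousAt_const.mul hcn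
      refine this.eventually (gt_mem_nhds ?_)
      show 3 * S.nrm z (inv y) < ρ
      rw [hiu, ← hα]
      linarith
    have h3 : ∀ᶠ p in 𝓝 y, p ∈ S.rexp z '' {v | S.nrm z v < ρ} :=
      (hN.isOpen_image hS hz le_rfl).mem_nhds ⟨u, huρ, hu⟩
    filter_upwards [h2, h3] with p hp2 hp3
    have h4 : S.rexp z (inv p) = p := by
      rw [hinv]
      exact Function.invFunOn_eq hp3
    have h5 := hD1 z hz (inv p) hp2
    rw [h4] at h5
    rw [h5, hS.nrm_sq hzU]
  -- the derivative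
  have hsq := hN.hasFDerivAt_sq hS hz huρ
  rw [← hinv, hu] at hsq
  have hcomp : HasDerivAt (fun τ => S.G z (inv (S.gfl τ (y, e')).1) (inv (S.gfl τ (y, e')).1))
      (((2 : ℝ) • S.G y (S.rexpV z u)) e') 0 := by
    have hsq' : HasFDerivAt (fun y' => S.G z (inv y') (inv y')) ((2 : ℝ) • S.G y (S.rexpV z u))
        ((fun r => (S.gfl r (y, e')).1) 0) := by
      simp only [gfl_zero]
      exact hsq
    exact hsq'.comp_hasDerivAt 0 hσd
  have hpoly : HasDerivAt (fun τ : ℝ => (α + τ) ^ 2) (2 * α) 0 := by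
    have h1 : HasDerivAt (fun τ : ℝ => α + τ) 1 0 := (hasDerivAt_id (0 : ℝ)).const_add α
    have h2 := h1.mul h1
    have e1 : (fun τ : ℝ => (α + τ) ^ 2) = fun τ : ℝ => (α + τ) * (α + τ) := funext fun τ => sq _
    rw [e1]
    have e2 : 2 * α = 1 * (α + 0) + (α + 0) * 1 := by ring
    rw [e2]
    exact h2
  have heq : (fun τ => S.G z (inv (S.gfl τ (y, e')).1) (inv (S.gfl τ (y, e')).1)) =ᶠ[𝓝[>] (0 : ℝ)]
      fun τ : ℝ => (α + τ) ^ 2 := by
    filter_upwards [hA, (hσc.eventually hB).filter_mono nhdsWithin_le_nhds] with τ h1 h2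
    rw [← h2, h1]
  have hval : S.G z (inv (S.gfl 0 (y, e')).1) (inv (S.gfl 0 (y, e')).1) = (α + 0) ^ 2 := by
    rw [gfl_zero]
    simp only
    rw [hiu, ← hS.nrm_sq hzU, ← hα, add_zero]
  have hder : ((2 : ℝ) • S.G y (S.rexpV z u)) e' = 2 * α := by
    have h1 := hcomp.hasDerivWithinAt (s := Set.Ioi 0)
    have h2 := (hpoly.hasDerivWithinAt (s := Set.Ioi 0)).congr_of_eventuallyEq heq hval
    exact (uniqueDiffWithinAt_Ioi (0 : ℝ)).eq_deriv _ h1 h2
  have hGAB : S.G y (S.rexpV z u) e' = α := by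
    simp only [_root_.smul_apply, smul_eq_mul] at hder
    linarith
  have hGAA : S.G y (S.rexpV z u) (S.rexpV z u) = α ^ 2 := by
    have := hS.G_rexpV hzu
    rw [hu] at this
    rw [this, ← hS.nrm_sq hzU, ← hα]
  have hV : S.rexpV z u = α • e' := gl_cs_eq hS hyU hGAA hGe' hGAB
  -- Claim C
  have hαm : (α, (z, e)) ∈ S.gdm := gl_mem_gdm hN hz hne (by rw [abs_of_pos hu0]; linarith)
  have hαβm : (α + β, (z, e)) ∈ S.gdm :=
    gl_mem_gdm hN hz hne (by rw [abs_of_pos (by linarith)]; linarith)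
  obtain ⟨-, c2, -⟩ := IsGeod.rexp_eq hS (hS.isOpen_gdm_times z e) (ordConnected_gdm_times S z e)
    (hS.isGeod_gfl z e) (t₀ := α) (t := α + β) hαm hαβm
  rw [gl_deriv_gfl hS hαm] at c2
  have c3 : (S.gfl α (z, e)).1 = y := by rw [← hS.rexp_smul hαm, ← hue, hu]
  have c4 : (S.gfl α (z, e)).2 = e' := by
    have := hS.rexpV_smul hαm
    rw [← hue, hV] at this
    exact (smul_right_injective W hu0.ne' this).symm
  rw [c3, c4, add_sub_cancel_left, ← hue', hu', ← hS.rexp_smul hαβm] at c2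
  have c5 : v = (α + β) • e := by
    refine hN.injOn z hz ?_ ?_ c2
    · show S.nrm z v < ρ
      rw [← hsum]
      linarith
    · show S.nrm z ((α + β) • e) < ρ
      rw [nrm_smul, hne, mul_one, abs_of_pos (by linarith)]
      linarith
  rw [c5, smul_smul, div_mul_cancel₀ _ (by linarith : α + β ≠ 0)]
  exact hue

end Claimed.Agent.R314
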