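import Claimed.Agent.R314.C.Defs
import Claimed.Agent.R314.C.GeoLocA

/-!
# Row 314, block C, package GEO, local theory (helper153), part B: radial geodesics are minimizing

EXPORT `gl_rdist_rexp` : in a uniformly normal neighbourhood `(N, ρ)` of the chart `(ψ, U)`:  `rdist X g (ψ z) (ψ (rexp z v)) = nrm z v` for `z ∈ N`, `3 |v| < ρ`.
Port of `R316/Base/Geod/Ball.lean` (`geod_calib_deriv`, `geod_calib`, `geod_hdist_rexp`) to the R315 language; the lower bound uses the Lipschitz test `if_lip` (a globally smooth truncated radial function with `|du| ≤ 1`) in place of the derivative along curves.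
-/

set_option autoImplicit false
set_option linter.unusedSectionVars false
set_option linter.unusedVariables false
set_option maxSynthPendingDepth 3
open scoped ContDiff Topology
open Set MeasureTheory Claims.C0499 Claimed.Agent.R315
open Claimed.Agent.R316 Claimed.Agent.R316.RGeo

namespace Claimed.Agent.R314

/-! ### the truncation (copy of `R316.g0psi`) -/

/-- the truncation `ψ s = ∫₀ˢ (1 - σ((r - s₀)/s₀)) dr`. -/
noncomputable def gl_psi (s₀ s : ℝ) : ℝ :=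
  ∫ r in (0 : ℝ)..s, (1 - Real.smoothTransition ((r - s₀) / s₀))

theorem gl_psi_continuous_integrand (s₀ : ℝ) :
    Continuous fun r : ℝ => 1 - Real.smoothTransition ((r - s₀) / s₀) :=
  continuous_const.sub (Real.smoothTransition.continuous.comp
    ((continuous_id.sub continuous_const).div_const s₀))

theorem gl_psi_hasDerivAt (s₀ s : ℝ) :
    HasDerivAt (gl_psi s₀) (1 - Real.smoothTransition ((s - s₀) / s₀)) s :=
  ((gl_psi_continuous_integrand s₀).integral_hasStrictDerivAt 0 s).hasDerivAt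

theorem gl_psi_monotone (s₀ : ℝ) : Monotone (gl_psi s₀) := by
  refine monotone_of_deriv_nonneg (fun s => (gl_psi_hasDerivAt s₀ s).differentiableAt) fun s => ?_
  rw [(gl_psi_hasDerivAt s₀ s).deriv]
  linarith [Real.smoothTransition.le_one ((s - s₀) / s₀)]

theorem gl_psi_eq_self {s₀ : ℝ} (hs₀ : 0 < s₀) {s : ℝ} (hs : s ≤ s₀) : gl_psi s₀ s = s := by
  have : ∫ r in (0 : ℝ)..s, (1 - Real.smoothTransition ((r - s₀) / s₀)) =
      ∫ r in (0 : ℝ)..s, (1 : ℝ) := by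
    refine intervalIntegral.integral_congr fun r hr => ?_
    have hr' : r ≤ s₀ := by
      rcases Set.mem_uIcc.1 hr with h | h
      · exact h.2.trans hs
      · exact h.2.trans hs₀.le
    have : (r - s₀) / s₀ ≤ 0 := div_nonpos_of_nonpos_of_nonneg (by linarith) hs₀.le
    simp only [Real.smoothTransition.zero_of_nonpos this, sub_zero]
  unfold gl_psi
  rw [this]
  simp

theorem gl_psi_const {s₀ : ℝ} (hs₀ : 0 < s₀) {s : ℝ} (hs : 2 * s₀ ≤ s) :
    gl_psi s₀ s = gl_psi s₀ (2 * s₀) := by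
  have hc := gl_psi_continuous_integrand s₀
  have h1 := intervalIntegral.integral_add_adjacent_intervals (μ := volume)
    (hc.intervalIntegrable 0 (2 * s₀)) (hc.intervalIntegrable (2 * s₀) s)
  have h2 : ∫ r in (2 * s₀)..s, (1 - Real.smoothTransition ((r - s₀) / s₀)) =
      ∫ r in (2 * s₀)..s, (0 : ℝ) := by
    refine intervalIntegral.integral_congr fun r hr => ?_
    rw [Set.uIcc_of_le hs] at hr
    have : 1 ≤ (r - s₀) / s₀ := by
      rw [le_div_iff₀ hs₀]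
      linarith [hr.1]
    simp only [Real.smoothTransition.one_of_one_le this, sub_self]
  unfold gl_psi
  rw [← h1, h2]
  simp

theorem gl_psi_contDiff (s₀ : ℝ) : ContDiff ℝ ∞ (gl_psi s₀) := by
  rw [contDiff_infty_iff_deriv]
  refine ⟨fun s => (gl_psi_hasDerivAt s₀ s).differentiableAt, ?_⟩
  have : deriv (gl_psi s₀) = fun s => 1 - Real.smoothTransition ((s - s₀) / s₀) :=
    funext fun s => (gl_psi_hasDerivAt s₀ s).deriv
  rw [this]
  exact contDiff_const.sub (Real.smoothTransition.contDiff.comp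
    ((contDiff_id.sub contDiff_const).div_const s₀))

/-! ### linear algebra -/

/-- converse of `if_cs_dual`. -/
theorem gl_dual_le {d : ℕ} {G : Matrix (Fin d) (Fin d) ℝ} (hG : G.PosDef) (φ : E d →L[ℝ] ℝ) {C : ℝ}
    (hC : 0 ≤ C) (H : ∀ X : E d, (φ X) ^ 2 ≤ C * if_bil G X X) :
    ∑ i, ∑ j, G⁻¹ i j * φ (eb i) * φ (eb j) ≤ C := by
  have hu : IsUnit G.det := isUnit_iff_ne_zero.2 hG.det_pos.ne'
  set p : Fin d → ℝ := fun i => φ (eb i) with hp
  set Y : E d := WithLp.toLp 2 (G⁻¹.mulVec p) with hY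
  have hGY : G.mulVec (Y : Fin d → ℝ) = p := by
    show G.mulVec (G⁻¹.mulVec p) = p
    rw [Matrix.mulVec_mulVec, Matrix.mul_nonsing_inv G hu, Matrix.one_mulVec]
  have h1 : if_bil G Y Y = φ Y := by
    rw [if_bil_eq_dot, hGY, if_clm_expand φ Y]
    rfl
  have h2 : if_bil G Y Y = ∑ i, ∑ j, G⁻¹ i j * φ (eb i) * φ (eb j) := by
    rw [if_bil_eq_dot, hGY]
    show (G⁻¹.mulVec p) ⬝ᵥ p = _
    simp only [dotProduct, Matrix.mulVec, Finset.sum_mul]
    refine Finset.sum_congr rfl fun i _ => Finset.sum_congr rfl fun j _ => ?_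
    ring
  have h3 := H Y
  have h4 : 0 ≤ if_bil G Y Y := if_bil_nonneg hG.posSemidef Y
  rw [← h1] at h3
  rw [← h2]
  rcases h4.eq_or_lt with h5 | h5
  · rw [← h5]
    exact hC
  · rw [sq] at h3
    exact le_of_mul_le_mul_right h3 h5

variable {V : Type} [NormedAddCommGroup V] [NormedSpace ℝ V] [FiniteDimensional ℝ V]
variable {n : ℕ} {X : Set V} {g : Ten V} {ψ : E n → V} {U B : Set (E n)}

/-! ### calibration -/

/-- the derivative bound of the truncated regularised radial function in the chart `(ψ, B)`. -/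
theorem gl_calib_deriv {G : Matrix (Fin n) (Fin n) ℝ} (hG : G.PosDef) {Q : E n → ℝ} {Q' : E n →L[ℝ] ℝ} {s₀ κ c₀ : ℝ}
    (hκ : 0 < κ) {ζ : E n} (hQ0 : 0 ≤ Q ζ) (hQd : HasFDerivAt Q Q' ζ)
    (hQb : ∀ a : E n, |Q' a| ≤ 2 * Real.sqrt (Q ζ) * Real.sqrt (if_bil G a a)) {F : E n → ℝ}
    (hF : F =ᶠ[𝓝 ζ] fun ζ => gl_psi s₀ (Real.sqrt (Q ζ + κ ^ 2)) - c₀) (a : E n) :
    (fderiv ℝ F ζ a) ^ 2 ≤ 1 * if_bil G a a := by
  have hκ2 : 0 < κ ^ 2 := by positivity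
  have hpos : 0 < Q ζ + κ ^ 2 := by linarith
  have h1 : HasFDerivAt (fun ζ => Q ζ + κ ^ 2) Q' ζ := hQd.add_const _
  have h2 := h1.sqrt hpos.ne'
  have h4 := ((gl_psi_hasDerivAt s₀ (Real.sqrt (Q ζ + κ ^ 2))).comp_hasFDerivAt ζ h2).sub_const c₀
  have h5 := (h4.congr_of_eventuallyEq hF).fderiv
  rw [h5]
  have hb1 := hQb a
  have hnn : 0 ≤ if_bil G a a := if_bil_nonneg hG.posSemidef a
  have hn2 : Real.sqrt (if_bil G a a) ^ 2 = if_bil G a a := Real.sq_sqrt hnn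
  have hn0 := Real.sqrt_nonneg (if_bil G a a)
  rw [one_mul, ← hn2]
  generalize Real.sqrt (if_bil G a a) = m at *
  have hst0 := Real.smoothTransition.nonneg ((Real.sqrt (Q ζ + κ ^ 2) - s₀) / s₀)
  have hst1 := Real.smoothTransition.le_one ((Real.sqrt (Q ζ + κ ^ 2) - s₀) / s₀)
  generalize Real.smoothTransition ((Real.sqrt (Q ζ + κ ^ 2) - s₀) / s₀) = τ at *
  have hle : Real.sqrt (Q ζ) ≤ Real.sqrt (Q ζ + κ ^ 2) := Real.sqrt_le_sqrt (by linarith)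
  have hfpos : 0 < Real.sqrt (Q ζ + κ ^ 2) := Real.sqrt_pos.2 hpos
  have hq0 : 0 ≤ Real.sqrt (Q ζ) := Real.sqrt_nonneg _
  simp only [_root_.smul_apply, smul_eq_mul]
  generalize Real.sqrt (Q ζ + κ ^ 2) = f at *
  generalize Real.sqrt (Q ζ) = q at *
  generalize Q' a = D at *
  have h6 : 1 / (2 * f) * |D| ≤ m := by
    rw [div_mul_eq_mul_div, one_mul, div_le_iff₀ (by positivity)]
    nlinarith
  have h7 : 0 ≤ 1 / (2 * f) * |D| := by positivity
  have h8 : |(1 - τ) * (1 / (2 * f) * D)| ≤ m := by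
    rw [abs_mul, abs_mul, abs_of_nonneg (by linarith : (0 : ℝ) ≤ 1 - τ),
      abs_of_pos (by positivity : (0 : ℝ) < 1 / (2 * f))]
    nlinarith
  exact sq_le_sq' (by linarith [neg_abs_le ((1 - τ) * (1 / (2 * f) * D))]) (le_trans (le_abs_self _) h8)

/-- **calibration** (R316 `geod_calib`): a smooth nonnegative function `Q` on a parametrised set `B` with `|dQ(a)| ≤ 2 √Q |a|_g` and compact sublevel set `{Q ≤ (2 s₀)²}` bounds the distance
from its zero `ψ w` to a point `ψ z` with `Q z ≤ s₀²` from below by `√(Q z)`. -/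
theorem gl_calib (hX : IsMfd n X) (hc : IsPreconnected X) (hg : IsMetricOn n X g)
    (hp : IsParam X ψ B) {Q : E n → ℝ} {Q' : E n → E n →L[ℝ] ℝ} {s₀ : ℝ} (hs₀ : 0 < s₀)
    (hQ0 : ∀ ζ ∈ B, 0 ≤ Q ζ) (hQs : ContDiffOn ℝ ∞ Q B) (hQd : ∀ ζ ∈ B, HasFDerivAt Q (Q' ζ) ζ)
    (hQb : ∀ ζ ∈ B, ∀ a : E n,
      |Q' ζ a| ≤ 2 * Real.sqrt (Q ζ) * Real.sqrt (if_bil (cm g ψ ζ) a a))
    (hK : IsCompact {ζ | ζ ∈ B ∧ Q ζ ≤ (2 * s₀) ^ 2}) {w z : E n} (hw : w ∈ B) (hQw : Q w = 0)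
    (hz : z ∈ B) (hQz : Q z ≤ s₀ ^ 2) :
    Real.sqrt (Q z) ≤ rdist X g (ψ w) (ψ z) := by
  classical
  have main : ∀ κ : ℝ, 0 < κ → κ ≤ s₀ → Real.sqrt (Q z) - κ ≤ rdist X g (ψ w) (ψ z) := by
    intro κ hκ hκs
    have hκ2 : 0 < κ ^ 2 := by positivity
    obtain ⟨u, hu₁, hu₂⟩ : ∃ u : V → ℝ,
        (∀ ζ ∈ B, u (ψ ζ) = gl_psi s₀ (Real.sqrt (Q ζ + κ ^ 2)) - gl_psi s₀ (2 * s₀)) ∧
        (∀ x, x ∉ ψ '' B → u x = 0) := by
      refine ⟨fun x => if x ∈ ψ '' B then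
        gl_psi s₀ (Real.sqrt (Q (Function.invFunOn ψ B x) + κ ^ 2)) - gl_psi s₀ (2 * s₀) else 0,
        fun ζ hζ => ?_, fun x hx => if_neg hx⟩
      show (if ψ ζ ∈ ψ '' B then _ else _) = _
      rw [if_pos (Set.mem_image_of_mem ψ hζ), if_leftInv hp hζ]
    have hKc : IsClosed (ψ '' {ζ | ζ ∈ B ∧ Q ζ ≤ (2 * s₀) ^ 2}) :=
      (hK.image_of_continuousOn ((if_continuousOn hp).mono fun ζ hζ => hζ.1)).isClosed
    have hu₃ : ∀ x, x ∉ ψ '' {ζ | ζ ∈ B ∧ Q ζ ≤ (2 * s₀) ^ 2} → u x = 0 := by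
      intro x hx
      by_cases hx' : x ∈ ψ '' B
      · obtain ⟨ζ, hζB, rfl⟩ := hx'
        have hQζ : (2 * s₀) ^ 2 < Q ζ := by
          by_contra hcon
          exact hx ⟨ζ, ⟨hζB, not_lt.1 hcon⟩, rfl⟩
        rw [hu₁ ζ hζB, sub_eq_zero]
        refine gl_psi_const hs₀ ?_
        refine Real.le_sqrt_of_sq_le ?_
        linarith
      · exact hu₂ _ hx'
    have hKB : ∀ x, x ∉ ψ '' B → x ∉ ψ '' {ζ | ζ ∈ B ∧ Q ζ ≤ (2 * s₀) ^ 2} :=
      fun x hx ⟨ζ, hζ, e⟩ => hx ⟨ζ, hζ.1, e⟩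
    -- (1) smoothness
    have hsm : SmoothAlong n X u := by
      refine if_smoothAlong_of_atlas fun x hx => ?_
      by_cases hx' : x ∈ ψ '' B
      · refine ⟨ψ, B, hp, hx', ?_⟩
        have h1 : ContDiffOn ℝ ∞ (fun ζ => gl_psi s₀ (Real.sqrt (Q ζ + κ ^ 2)) - gl_psi s₀ (2 * s₀)) B := by
          refine ContDiffOn.sub ?_ contDiffOn_const
          refine (gl_psi_contDiff s₀).comp_contDiffOn ?_
          exact (hQs.add contDiffOn_const).sqrt fun ζ hζ => (by linarith [hQ0 ζ hζ] : (0 : ℝ) < Q ζ + κ ^ 2).ne'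
        exact h1.congr fun ζ hζ => hu₁ ζ hζ
      · obtain ⟨ψ₁, U₁, h₁, u₁, hu₁', rfl⟩ := hX x hx
        have hWo : IsOpen (U₁ ∩ ψ₁ ⁻¹' (ψ '' {ζ | ζ ∈ B ∧ Q ζ ≤ (2 * s₀) ^ 2})ᶜ) :=
          (if_continuousOn h₁).isOpen_inter_preimage (if_open h₁) hKc.isOpen_compl
        refine ⟨ψ₁, _, if_mono h₁ hWo inter_subset_left, ⟨u₁, ⟨hu₁', hKB _ hx'⟩, rfl⟩, ?_⟩
        exact (contDiffOn_const (c := (0 : ℝ))).congr fun ζ hζ => hu₃ _ hζ.2
    -- (2) the gradient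
    have hgr : ∀ x ∈ X, gradSq n X g u x ≤ 1 ^ 2 := by
      intro x hx
      by_cases hx' : x ∈ ψ '' B
      · obtain ⟨ζ, hζ, rfl⟩ := hx'
        rw [if_gradSq_eq hg hsm hp hζ, one_pow]
        have hF : (u ∘ ψ) =ᶠ[𝓝 ζ] fun ζ => gl_psi s₀ (Real.sqrt (Q ζ + κ ^ 2)) - gl_psi s₀ (2 * s₀) :=
          Filter.mem_of_superset ((if_open hp).mem_nhds hζ) fun ξ hξ => hu₁ ξ hξ
        exact gl_dual_le ((hg ψ B hp).2 ζ hζ) (fderiv ℝ (u ∘ ψ) ζ) zero_le_one fun a =>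
          gl_calib_deriv ((hg ψ B hp).2 ζ hζ) hκ (hQ0 ζ hζ) (hQd ζ hζ) (hQb ζ hζ) hF a
      · have h0 : u =ᶠ[𝓝 x] 0 :=
          Filter.mem_of_superset (hKc.isOpen_compl.mem_nhds (hKB x hx')) fun y hy => hu₃ y hy
        rw [if_gradSq_eq_zero hX hg hsm hx h0]
        norm_num
    -- (3) the Lipschitz test
    have h1 := if_lip hX hg hsm zero_le_one hgr
      (if_join_of_connected hX hc (if_mem hp hw) (if_mem hp hz))
    rw [hu₁ w hw, hu₁ z hz, hQw, zero_add, Real.sqrt_sq hκ.le, gl_psi_eq_self hs₀ hκs, one_mul] at h1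
    have h2 : Real.sqrt (Q z) ≤ gl_psi s₀ (Real.sqrt (Q z + κ ^ 2)) := by
      have h3 : Real.sqrt (Q z) ≤ s₀ := Real.sqrt_le_iff.2 ⟨hs₀.le, hQz⟩
      rw [← gl_psi_eq_self hs₀ h3]
      exact gl_psi_monotone s₀ (Real.sqrt_le_sqrt (by nlinarith [sq_nonneg κ]))
    have h4 := le_abs_self (gl_psi s₀ (Real.sqrt (Q z + κ ^ 2)) - gl_psi s₀ (2 * s₀) - (κ - gl_psi s₀ (2 * s₀)))
    linarith
  refine le_of_forall_pos_le_add fun ε hε => ?_
  have := main (min ε s₀) (lt_min hε hs₀) (min_le_right _ _)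
  linarith [min_le_left ε s₀]

/-! ### radial geodesics -/

/-- upper bound: the length of the radial geodesic. -/
theorem gl_rdist_le (hp : IsParam X ψ U) (hS : (rgeo g ψ U).IsRiem) {z v : E n}
    (hzv : (z, v) ∈ (rgeo g ψ U).expDom) :
    rdist X g (ψ z) (ψ ((rgeo g ψ U).rexp z v)) ≤ (rgeo g ψ U).nrm z v := by
  obtain ⟨S, hSdef⟩ : ∃ S, S = rgeo g ψ U := ⟨_, rfl⟩
  have hSU : S.U = U := by rw [hSdef]; rfl
  have hSG : ∀ x a b, S.G x a b = if_bil (cm g ψ x) a b := by intro x a b; rw [hSdef]; rfl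
  rw [← hSdef] at hS hzv ⊢
  have hzU : z ∈ S.U := mem_U_of_mem_expDom hzv
  have hdom : ∀ t : ℝ, (z, if_st t • v) ∈ S.expDom := fun t => smul_mem_expDom hzv (if_st_mem t)
  have hgdm : ∀ t : ℝ, (if_st t, (z, v)) ∈ S.gdm := fun t => mem_expDom_iff.1 (hdom t)
  set γ : ℝ → E n := fun t => S.rexp z (if_st t • v) with hγ
  have hγc : ContDiff ℝ 1 γ := by
    rw [contDiff_iff_contDiffAt]
    intro t
    have h1 : ContDiffAt ℝ 1 (S.rexp z) (if_st t • v) := (hS.contDiffAt_rexp (hdom t)).of_le (by simp)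
    have h2 : ContDiffAt ℝ 1 (fun t : ℝ => if_st t • v) t := (if_st_contDiff.smul contDiff_const).contDiffAt
    exact ContDiffAt.comp (g := S.rexp z) (f := fun t : ℝ => if_st t • v) t h1 h2
  have hγU : ∀ t, γ t ∈ U := fun t => by
    rw [← hSU]
    exact rexp_mem (hdom t)
  have hadm := if_adm_of_param hp hγc hγU
  have h0 : (ψ ∘ γ) 0 = ψ z := by
    show ψ (S.rexp z (if_st 0 • v)) = ψ z
    have : if_st 0 = 0 := by simp [if_st]
    rw [this, zero_smul, hS.rexp_zero hzU]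
  have h1 : (ψ ∘ γ) 1 = ψ (S.rexp z v) := by
    show ψ (S.rexp z (if_st 1 • v)) = ψ (S.rexp z v)
    have : if_st 1 = 1 := by simp [if_st]
    rw [this, one_smul]
  refine (if_rdist_le' hadm g h0 h1).trans (le_of_eq ?_)
  have hder : ∀ t : ℝ, HasDerivAt γ (deriv if_st t • (S.gfl (if_st t) (z, v)).2) t := by
    intro t
    have a1 : HasDerivAt (fun r : ℝ => S.rexp z (r • v)) (S.gfl (if_st t) (z, v)).2 (if_st t) :=
      (hS.hasDerivAt_gfl_fst (hgdm t)).congr_of_eventuallyEq (hS.rexp_smul_eventuallyEq (hgdm t))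
    exact a1.scomp t (if_st_differentiableAt t).hasDerivAt
  have hsp : ∀ t : ℝ, if_speed g (ψ ∘ γ) t = S.nrm z v * deriv if_st t := by
    intro t
    rw [if_speed_param g hp (hder t).differentiableAt (hγU t), (hder t).deriv, ← hSG]
    have e1 : γ t = (S.gfl (if_st t) (z, v)).1 := hS.rexp_smul (hgdm t)
    rw [e1]
    simp only [map_smul, _root_.smul_apply, smul_eq_mul]
    rw [hS.G_gfl (hgdm t), ← mul_assoc, Real.sqrt_mul (mul_self_nonneg _),
      Real.sqrt_mul_self (if_st_deriv_nonneg t), mul_comm]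
    rfl
  unfold if_len
  simp_rw [hsp]
  rw [intervalIntegral.integral_const_mul, if_st_integral_deriv, mul_one]

theorem gl_isCompact_G_le {W : Type} [NormedAddCommGroup W] [NormedSpace ℝ W]
    [FiniteDimensional ℝ W] {S : RGeo W} (hS : S.IsRiem) {z : W} (hz : z ∈ S.U) (R : ℝ) :
    IsCompact {v : W | S.G z v v ≤ R} := by
  obtain ⟨m, M, hm, hM, hb⟩ := hS.exists_bounds (K := {z}) isCompact_singleton
    (Set.singleton_subset_iff.2 hz)
  have hcl : IsClosed {v : W | S.G z v v ≤ R} :=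
    isClosed_le ((S.G z).continuous.clm_apply continuous_id) continuous_const
  refine Metric.isCompact_of_isClosed_isBounded hcl ?_
  refine (Metric.isBounded_closedBall (x := (0 : W)) (r := Real.sqrt R / m)).subset fun v hv => ?_
  rw [mem_closedBall_zero_iff, le_div_iff₀ hm, mul_comm]
  exact ((hb z rfl v).1).trans (Real.sqrt_le_sqrt hv)

/-- lower bound (R316 `geod_hdist_rexp`, second half). -/
theorem gl_rdist_ge (hX : IsMfd n X) (hc : IsPreconnected X) (hg : IsMetricOn n X g)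
    (hp : IsParam X ψ U) (hS : (rgeo g ψ U).IsRiem) {N : Set (E n)} {ρ : ℝ}
    (hN : (rgeo g ψ U).IsNormal N ρ) {z v : E n} (hz : z ∈ N)
    (hv : 3 * (rgeo g ψ U).nrm z v < ρ) :
    (rgeo g ψ U).nrm z v ≤ rdist X g (ψ z) (ψ ((rgeo g ψ U).rexp z v)) := by
  have hzU : z ∈ (rgeo g ψ U).U := hN.subset hz
  have hρ := hN.pos
  have hn0 := (rgeo g ψ U).nrm_nonneg z v
  have hvρ : (rgeo g ψ U).nrm z v < ρ := by linarith
  have hzv := hN.mem z hz v hvρ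
  have hBo : IsOpen ((rgeo g ψ U).rexp z '' {v | (rgeo g ψ U).nrm z v < ρ}) :=
    hN.isOpen_image hS hz le_rfl
  have hBU : (rgeo g ψ U).rexp z '' {v | (rgeo g ψ U).nrm z v < ρ} ⊆ U := by
    rintro _ ⟨v', hv', rfl⟩
    exact RGeo.rexp_mem (hN.mem z hz v' hv')
  have hpB := if_mono hp hBo hBU
  have hinv : ∀ v' ∈ {v | (rgeo g ψ U).nrm z v < ρ},
      Function.invFunOn ((rgeo g ψ U).rexp z) {v | (rgeo g ψ U).nrm z v < ρ}
        ((rgeo g ψ U).rexp z v') = v' :=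
    fun v' hv' => (hN.injOn z hz).leftInvOn_invFunOn hv'
  have hsq := fun (v' : E n) (hv' : (rgeo g ψ U).nrm z v' < ρ) => hN.hasFDerivAt_sq hS hz hv'
  have hsm := hN.contDiffOn_inv hS hz
  generalize Function.invFunOn ((rgeo g ψ U).rexp z) {v | (rgeo g ψ U).nrm z v < ρ} = inv at *
  have hQ0 : ∀ ζ ∈ (rgeo g ψ U).rexp z '' {v | (rgeo g ψ U).nrm z v < ρ},
      0 ≤ (fun ζ => (rgeo g ψ U).G z (inv ζ) (inv ζ)) ζ := fun ζ _ => hS.G_self_nonneg hzU _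
  have hQs : ContDiffOn ℝ ∞ (fun ζ => (rgeo g ψ U).G z (inv ζ) (inv ζ))
      ((rgeo g ψ U).rexp z '' {v | (rgeo g ψ U).nrm z v < ρ}) :=
    (((rgeo g ψ U).G z).contDiff.comp_contDiffOn hsm).clm_apply hsm
  have hQd : ∀ ζ ∈ (rgeo g ψ U).rexp z '' {v | (rgeo g ψ U).nrm z v < ρ},
      HasFDerivAt (fun ζ => (rgeo g ψ U).G z (inv ζ) (inv ζ))
        ((fun ζ => (2 : ℝ) • (rgeo g ψ U).G ζ ((rgeo g ψ U).rexpV z (inv ζ))) ζ) ζ := by
    rintro _ ⟨v', hv', rfl⟩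
    beta_reduce
    rw [hinv v' hv']
    exact hsq v' hv'
  have hQb : ∀ ζ ∈ (rgeo g ψ U).rexp z '' {v | (rgeo g ψ U).nrm z v < ρ}, ∀ a : E n,
      |(fun ζ => (2 : ℝ) • (rgeo g ψ U).G ζ ((rgeo g ψ U).rexpV z (inv ζ))) ζ a| ≤
        2 * Real.sqrt ((fun ζ => (rgeo g ψ U).G z (inv ζ) (inv ζ)) ζ) *
          Real.sqrt (if_bil (cm g ψ ζ) a a) := by
    rintro _ ⟨v', hv', rfl⟩ a
    beta_reduce
    rw [hinv v' hv']
    have h1 := hS.abs_G_le (RGeo.rexp_mem (hN.mem z hz v' hv')) ((rgeo g ψ U).rexpV z v') a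
    rw [hS.nrm_rexpV (hN.mem z hz v' hv')] at h1
    simp only [_root_.smul_apply, smul_eq_mul, abs_mul, abs_two]
    have e1 : Real.sqrt ((rgeo g ψ U).G z v' v') = (rgeo g ψ U).nrm z v' := rfl
    have e2 : Real.sqrt (if_bil (cm g ψ ((rgeo g ψ U).rexp z v')) a a) =
      (rgeo g ψ U).nrm ((rgeo g ψ U).rexp z v') a := rfl
    rw [e1, e2, mul_assoc]
    linarith
  have hCD : ∀ v' : E n, (rgeo g ψ U).G z v' v' ≤ (2 * (ρ / 3)) ^ 2 →
      (rgeo g ψ U).nrm z v' < ρ := by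
    intro v' hv'
    have : (rgeo g ψ U).nrm z v' ≤ 2 * (ρ / 3) := by
      rw [RGeo.nrm]
      exact Real.sqrt_le_iff.2 ⟨by linarith, hv'⟩
    linarith
  have hK : IsCompact {ζ | ζ ∈ (rgeo g ψ U).rexp z '' {v | (rgeo g ψ U).nrm z v < ρ} ∧
      (fun ζ => (rgeo g ψ U).G z (inv ζ) (inv ζ)) ζ ≤ (2 * (ρ / 3)) ^ 2} := by
    have hC : IsCompact {v' : E n | (rgeo g ψ U).G z v' v' ≤ (2 * (ρ / 3)) ^ 2} :=
      gl_isCompact_G_le hS hzU _
    have himg : {ζ | ζ ∈ (rgeo g ψ U).rexp z '' {v | (rgeo g ψ U).nrm z v < ρ} ∧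
        (fun ζ => (rgeo g ψ U).G z (inv ζ) (inv ζ)) ζ ≤ (2 * (ρ / 3)) ^ 2} =
        (rgeo g ψ U).rexp z '' {v' : E n | (rgeo g ψ U).G z v' v' ≤ (2 * (ρ / 3)) ^ 2} := by
      ext ζ
      constructor
      · rintro ⟨⟨v', hv', rfl⟩, hq⟩
        beta_reduce at hq
        rw [hinv v' hv'] at hq
        exact ⟨v', hq, rfl⟩
      · rintro ⟨v', hv', rfl⟩
        refine ⟨⟨v', hCD v' hv', rfl⟩, ?_⟩
        beta_reduce
        rw [hinv v' (hCD v' hv')]
        exact hv'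
    rw [himg]
    exact hC.image_of_continuousOn fun v' hv' =>
      (hS.contDiffAt_rexp (hN.mem z hz v' (hCD v' hv'))).continuousAt.continuousWithinAt
  have h0D : (0 : E n) ∈ {v | (rgeo g ψ U).nrm z v < ρ} := by
    show (rgeo g ψ U).nrm z 0 < ρ
    rw [RGeo.nrm_zero]
    exact hρ
  have hzB : z ∈ (rgeo g ψ U).rexp z '' {v | (rgeo g ψ U).nrm z v < ρ} :=
    ⟨0, h0D, hS.rexp_zero hzU⟩
  have hQz : (fun ζ => (rgeo g ψ U).G z (inv ζ) (inv ζ)) z = 0 := by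
    beta_reduce
    have := hinv 0 h0D
    rw [hS.rexp_zero hzU] at this
    rw [this]
    simp
  have hyB : (rgeo g ψ U).rexp z v ∈ (rgeo g ψ U).rexp z '' {v | (rgeo g ψ U).nrm z v < ρ} :=
    ⟨v, hvρ, rfl⟩
  have hQy : (rgeo g ψ U).G z (inv ((rgeo g ψ U).rexp z v)) (inv ((rgeo g ψ U).rexp z v)) =
      (rgeo g ψ U).nrm z v ^ 2 := by
    rw [hinv v hvρ, hS.nrm_sq hzU]
  have := gl_calib hX hc hg hpB (s₀ := ρ / 3) (by linarith) hQ0 hQs hQd hQb hK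
    hzB hQz hyB (by rw [hQy]; exact pow_le_pow_left₀ hn0 (by linarith) 2)
  beta_reduce at this
  rwa [hQy, Real.sqrt_sq hn0] at this

/-- **radial geodesics are minimizing** in a normal ball. -/
theorem gl_rdist_rexp (hX : IsMfd n X) (hc : IsPreconnected X) (hg : IsMetricOn n X g)
    (hp : IsParam X ψ U) (hS : (rgeo g ψ U).IsRiem) {N : Set (E n)} {ρ : ℝ}
    (hN : (rgeo g ψ U).IsNormal N ρ) {z v : E n} (hz : z ∈ N)
    (hv : 3 * (rgeo g ψ U).nrm z v < ρ) :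
    rdist X g (ψ z) (ψ ((rgeo g ψ U).rexp z v)) = (rgeo g ψ U).nrm z v :=
  le_antisymm (gl_rdist_le hp hS (hN.mem z hz v (by
    linarith [(rgeo g ψ U).nrm_nonneg z v, hN.pos]))) (gl_rdist_ge hX hc hg hp hS hN hz hv)

end Claimed.Agent.R314
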