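import Claimed.Agent.R314.C.GeoLocA
import Claimed.Agent.R314.Geo.Basic

/-!
# Row 314, block C, package GEO, local theory, part D (helper111; file GeoLocD): metric segments are geodesics

INPUT (part B, helper153), as a hypothesis `GlB n X g`: in a uniformly normal neighbourhood of a parametrisation the Riemannian distance is the radial coordinate.
* `glc_piece` : a metric segment is, near every time, the restriction of a unit speed geodesic defined on a larger interval (`gl_between`);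
* `glc_seg`   : GEO-4;
* `glc_line`  : GEO-5.
-/

set_option autoImplicit false
set_option linter.unusedSectionVars false
set_option linter.unusedVariables false
set_option maxSynthPendingDepth 3
open scoped ContDiff Topology
open Set Claims.C0499 Claimed.Agent.R315
open Claimed.Agent.R316 (RGeo)

namespace Claimed.Agent.R314

variable {V : Type} [NormedAddCommGroup V] [NormedSpace ℝ V] [FiniteDimensional ℝ V]
variable {n : ℕ} {X : Set V} {g : Ten V}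

/-- part (B): the distance in a uniformly normal neighbourhood is the radial coordinate. -/
def GlB (n : ℕ) (X : Set V) (g : Ten V) : Prop :=
  ∀ (ψ : E n → V) (U : Set (E n)), IsParam X ψ U → ∀ (N : Set (E n)) (ρ : ℝ), (rgeo g ψ U).IsNormal N ρ →
    ∀ z ∈ N, ∀ v : E n, 3 * (rgeo g ψ U).nrm z v < ρ →
      rdist X g (ψ z) (ψ ((rgeo g ψ U).rexp z v)) = (rgeo g ψ U).nrm z v

/-- a metric segment is locally the restriction of a unit speed geodesic. -/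
theorem glc_piece (h : CM n X g) (hB : GlB n X g) {c : ℝ → V} {a b : ℝ} (hc : IsSeg X g c (Icc a b))
    {t₀ : ℝ} (ht₀ : t₀ ∈ Icc a b) :
    ∃ ρ > 0, ∀ s ∈ Icc a b, ∀ t ∈ Icc a b, s < t → |s - t₀| < ρ → |t - t₀| < ρ →
      ∃ (σ : ℝ → V) (ε : ℝ), 0 < ε ∧ IsGeo n X g σ (Ioo (s - ε) (t + ε)) ∧ EqOn σ c (Icc s t) ∧
        g (σ s) (deriv σ s) (deriv σ s) = 1 := by
  have hM := h.mfd
  have hpc := h.conn.isPreconnected
  have hg := h.met
  have hrd : IsRd X g := if_isRd h.mfd h.conn h.met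
  obtain ⟨ψ, U, hp, z₀, hz₀, hpz⟩ := hM (c t₀) (hc.1 t₀ ht₀)
  have hS := rgeo_isRiem hg hp
  obtain ⟨N, ρ₀, hz₀N, hN⟩ := hS.exists_normal (x₀ := z₀) hz₀
  have hρ₀ := hN.pos
  obtain ⟨N', hN', Hp⟩ := hS.exists_nhds_pairs (x₀ := z₀) hz₀ (ρ' := ρ₀ / 3) (by linarith)
  obtain ⟨O, hO, hOe⟩ := if_image_open hp (hN.isOpen.inter isOpen_interior)
    (inter_subset_left.trans hN.subset)
  have hz₀' : z₀ ∈ N ∩ interior N' := ⟨hz₀N, mem_interior_iff_mem_nhds.2 hN'⟩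
  have hpO : c t₀ ∈ O := by
    have : ψ z₀ ∈ X ∩ O := hOe ▸ mem_image_of_mem ψ hz₀'
    rw [← hpz]
    exact this.2
  obtain ⟨ρ, hρ, hlow⟩ := if_rdist_lower hM hpc hg (hc.1 t₀ ht₀) (hO.mem_nhds hpO)
  refine ⟨ρ, hρ, fun s hs t ht hst hsρ htρ => ?_⟩
  have hsub : ∀ r ∈ Icc s t, r ∈ Icc a b := fun r hr => ⟨hs.1.trans hr.1, hr.2.trans ht.2⟩
  -- coordinates
  have hco : ∀ r ∈ Icc s t, ∃ y ∈ N ∩ interior N', ψ y = c r := by
    intro r hr
    have h1 : rdist X g (c t₀) (c r) < ρ := by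
      rw [hc.2 t₀ ht₀ r (hsub r hr)]
      rw [abs_lt] at *
      constructor <;> linarith [hr.1, hr.2]
    have h2 : c r ∈ X ∩ O := ⟨hc.1 r (hsub r hr), hlow _ (hc.1 r (hsub r hr)) h1⟩
    rw [← hOe] at h2
    obtain ⟨y, hy, hye⟩ := h2
    exact ⟨y, hy, hye⟩
  have hdd : ∀ r ∈ Icc s t, ∀ r' ∈ Icc s t, r ≤ r' → rdist X g (c r) (c r') = r' - r := by
    intro r hr r' hr' hrr
    rw [hc.2 r (hsub r hr) r' (hsub r' hr'), abs_sub_comm, abs_of_nonneg (sub_nonneg.2 hrr)]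
  -- joining two points of the segment
  have hjoin : ∀ r ∈ Icc s t, ∀ r' ∈ Icc s t, r ≤ r' → ∀ y ∈ N ∩ interior N', ψ y = c r →
      ∀ y' ∈ N ∩ interior N', ψ y' = c r' →
      ∃ u, (rgeo g ψ U).rexp y u = y' ∧ (rgeo g ψ U).nrm y u = r' - r ∧ 3 * (rgeo g ψ U).nrm y u < ρ₀ := by
    intro r hr r' hr' hrr y hy hye y' hy' hye'
    obtain ⟨u, hu1, -, hu3⟩ := Hp y (interior_subset hy.2) y' (interior_subset hy'.2)
    have h3 : 3 * (rgeo g ψ U).nrm y u < ρ₀ := by linarith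
    have h4 := hB ψ U hp N ρ₀ hN y hy.1 u h3
    rw [hu3, hye, hye', hdd r hr r' hr' hrr] at h4
    exact ⟨u, hu3, h4.symm, h3⟩
  have hsI : s ∈ Icc s t := ⟨le_rfl, hst.le⟩
  have htI : t ∈ Icc s t := ⟨hst.le, le_rfl⟩
  obtain ⟨z, hz, hze⟩ := hco s hsI
  obtain ⟨w, hw, hwe⟩ := hco t htI
  obtain ⟨v, hv1, hv2, hv3⟩ := hjoin s hsI t htI hst.le z hz hze w hw hwe
  have hl : 0 < t - s := by linarith
  have hzU := hN.subset hz.1
  -- the unit vector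
  obtain ⟨e, he⟩ : ∃ e, e = (t - s)⁻¹ • v := ⟨_, rfl⟩
  have hve : v = (t - s) • e := by rw [he, smul_smul, mul_inv_cancel₀ hl.ne', one_smul]
  have hne : (rgeo g ψ U).nrm z e = 1 := by
    rw [he, RGeo.nrm_smul, hv2, abs_of_pos (inv_pos.2 hl), inv_mul_cancel₀ hl.ne']
  have hgd : ∀ τ : ℝ, |τ| < ρ₀ → (τ, (z, e)) ∈ (rgeo g ψ U).gdm := fun τ hτ => gl_mem_gdm hN hz.1 hne hτ
  have hsubI : Ioo (-ρ₀) ρ₀ ⊆ {τ | (τ, (z, e)) ∈ (rgeo g ψ U).gdm} := fun τ hτ =>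
    hgd τ (abs_lt.2 ⟨hτ.1, hτ.2⟩)
  have hgeod := (hS.isGeod_gfl z e).mono hsubI
  have hG0 := isGeo_of_isGeod hg hp isOpen_Ioo hgeod
  have hG1 := hG0.shift (-s)
  have h0m : ((0 : ℝ), (z, e)) ∈ (rgeo g ψ U).gdm := hgd 0 (by simpa using hρ₀)
  have hd0 := hS.hasDerivAt_gfl_fst h0m
  rw [RGeo.gfl_zero] at hd0
  have hc0 : ((rgeo g ψ U).gfl 0 (z, e)).1 = z := by rw [RGeo.gfl_zero]
  refine ⟨fun r => (ψ ∘ fun τ => ((rgeo g ψ U).gfl τ (z, e)).1) (r + -s), ρ₀ / 2, by linarith,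
    hG1.mono fun r hr => ⟨by linarith [hr.1], by linarith [hr.2]⟩, fun r hr => ?_, ?_⟩
  · -- the segment is the radial geodesic
    show ψ ((rgeo g ψ U).gfl (r + -s) (z, e)).1 = c r
    have hrs : 0 ≤ r - s := by linarith [hr.1]
    have hrm : (r + -s, (z, e)) ∈ (rgeo g ψ U).gdm :=
      hgd _ (by rw [← sub_eq_add_neg, abs_of_nonneg hrs]; linarith [hr.2])
    rw [← hS.rexp_smul hrm]
    rcases hr.1.eq_or_lt with hrs' | hrs'
    · rw [← hrs', add_neg_cancel, zero_smul, hS.rexp_zero hzU, hze]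
    rcases hr.2.eq_or_lt with hrt | hrt
    · rw [hrt, ← sub_eq_add_neg, ← hve, hv1, hwe]
    obtain ⟨y, hy, hye⟩ := hco r hr
    obtain ⟨u, hu1, hu2, hu3⟩ := hjoin s hsI r hr hr.1 z hz hze y hy hye
    obtain ⟨u', hu'1, hu'2, hu'3⟩ := hjoin r hr t htI hr.2 y hy hye w hw hwe
    have hbt := gl_between hS hN (D := fun p q => rdist X g (ψ p) (ψ q))
      (fun z' hz' v' hv' => hB ψ U hp N ρ₀ hN z' hz' v' hv')
      (fun p hp' q hq' r' hr' => hrd.tri _ (if_mem hp hp') _ (if_mem hp hq') _ (if_mem hp hr'))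
      hz.1 hy.1 hu1 (hu'1.trans hv1.symm) hv3 (by rw [hu2, hu'2, hv2]; ring)
      (by rw [hu2]; linarith) (by rw [hu'2]; linarith)
    rw [hu2, hv2, hve, smul_smul, div_mul_cancel₀ _ hl.ne'] at hbt
    rw [← sub_eq_add_neg, ← hbt, hu1, hye]
  · -- unit speed
    have e1 : deriv (fun r => (ψ ∘ fun τ => ((rgeo g ψ U).gfl τ (z, e)).1) (r + -s)) s =
        deriv (ψ ∘ fun τ => ((rgeo g ψ U).gfl τ (z, e)).1) 0 := by
      have := deriv_comp_add_const (f := ψ ∘ fun τ => ((rgeo g ψ U).gfl τ (z, e)).1) (-s) s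
      simpa using this
    have e2 := geo_deriv_comp hp (c := fun τ => ((rgeo g ψ U).gfl τ (z, e)).1) (t := 0)
      hd0.differentiableAt (by show ((rgeo g ψ U).gfl 0 (z, e)).1 ∈ U; rw [hc0]; exact hzU)
    rw [hd0.deriv] at e2
    simp only [hc0] at e2
    rw [e1, e2]
    show g (ψ ((rgeo g ψ U).gfl (s + -s) (z, e)).1) _ _ = 1
    rw [add_neg_cancel, hc0, ← rgeo_G_apply g ψ U, ← hS.nrm_sq hzU, hne, one_pow]

/-- **GEO-4** a metric segment is (the restriction of) a unit speed geodesic. -/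
theorem glc_seg (h : CM n X g) (hB : GlB n X g) {c : ℝ → V} {a b : ℝ} (hab : a < b)
    (hc : IsSeg X g c (Icc a b)) :
    ∃ (γ : ℝ → V) (ε : ℝ), 0 < ε ∧ IsGeo n X g γ (Ioo (a - ε) (b + ε)) ∧ EqOn γ c (Icc a b) ∧
      ∀ t ∈ Ioo (a - ε) (b + ε), g (γ t) (deriv γ t) (deriv γ t) = 1 := by
  have hM := h.mfd
  have hg := h.met
  -- the interior
  have hint : IsGeo n X g c (Ioo a b) := by
    refine IsGeo.of_local fun t₀ ht₀ => ?_
    obtain ⟨ρ, hρ, H⟩ := glc_piece h hB hc (Ioo_subset_Icc_self ht₀)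
    set δ := min (ρ / 2) (min (t₀ - a) (b - t₀)) with hδ
    have hδ0 : 0 < δ := lt_min (by linarith) (lt_min (by linarith [ht₀.1]) (by linarith [ht₀.2]))
    have hδ1 : δ ≤ ρ / 2 := min_le_left _ _
    have hδ2 : δ ≤ t₀ - a := (min_le_right _ _).trans (min_le_left _ _)
    have hδ3 : δ ≤ b - t₀ := (min_le_right _ _).trans (min_le_right _ _)
    have hs : t₀ - δ ∈ Icc a b := ⟨by linarith, by linarith⟩
    have ht : t₀ + δ ∈ Icc a b := ⟨by linarith, by linarith⟩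
    obtain ⟨σ, ε, hε, hgσ, he, -⟩ := H _ hs _ ht (by linarith)
      (by rw [abs_lt]; constructor <;> linarith) (by rw [abs_lt]; constructor <;> linarith)
    refine ⟨Ioo (t₀ - δ) (t₀ + δ), isOpen_Ioo, ⟨by linarith, by linarith⟩, ?_⟩
    refine (hgσ.mono fun r hr => ⟨by linarith [hr.1], by linarith [hr.2]⟩).congr fun r hr => ?_
    exact (he (Ioo_subset_Icc_self hr)).symm
  -- the left end
  obtain ⟨ρ₀, hρ₀, H₀⟩ := glc_piece h hB hc (t₀ := a) ⟨le_rfl, hab.le⟩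
  set t := min b (a + ρ₀ / 2) with ht
  have ht0 : a < t := lt_min hab (by linarith)
  have htl : t ≤ b := min_le_left _ _
  have htρ : t ≤ a + ρ₀ / 2 := min_le_right _ _
  obtain ⟨σ₀, ε₀, hε₀, hg₀, he₀, hu₀⟩ := H₀ a ⟨le_rfl, hab.le⟩ t ⟨ht0.le, htl⟩ ht0 (by simpa using hρ₀)
      (by rw [abs_lt]; constructor <;> linarith)
  obtain ⟨g₁, hg₁, hg₁σ, hg₁γ⟩ := hg₀.glue_of_eventuallyEq hM hg hint (t₀ := (a + t) / 2)
    ⟨by linarith, by linarith⟩ ⟨by linarith, by linarith⟩ (by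
      filter_upwards [isOpen_Ioo.mem_nhds (show (a + t) / 2 ∈ Ioo a t from
        ⟨by linarith, by linarith⟩)] with r hr using he₀ (Ioo_subset_Icc_self hr))
  -- the right end
  obtain ⟨ρ₁, hρ₁, H₁⟩ := glc_piece h hB hc (t₀ := b) ⟨hab.le, le_rfl⟩
  set s := max a (b - ρ₁ / 2) with hs
  have hs0 : a ≤ s := le_max_left _ _
  have hsl : s < b := max_lt hab (by linarith)
  have hsρ : b - ρ₁ / 2 ≤ s := le_max_right _ _
  obtain ⟨σ₁, ε₁, hε₁, hgσ₁, he₁, -⟩ := H₁ s ⟨hs0, hsl.le⟩ b ⟨hab.le, le_rfl⟩ hsl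
    (by rw [abs_lt]; constructor <;> linarith) (by simpa using hρ₁)
  have hmid : (s + b) / 2 ∈ Ioo s b := ⟨by linarith, by linarith⟩
  have hmid0 : (s + b) / 2 ∈ Ioo a b := ⟨by linarith [hmid.1], hmid.2⟩
  obtain ⟨g₂, hg₂, hg₂g₁, hg₂σ⟩ := hg₁.glue_of_eventuallyEq hM hg hgσ₁ (t₀ := (s + b) / 2)
    ⟨lt_of_le_of_lt (min_le_right _ _) hmid0.1, lt_of_lt_of_le hmid0.2 (le_max_right _ _)⟩
    ⟨by linarith [hmid.1], by linarith [hmid.2]⟩ (by
      filter_upwards [isOpen_Ioo.mem_nhds hmid] with r hr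
      rw [hg₁γ ⟨by linarith [hr.1], hr.2⟩, he₁ (Ioo_subset_Icc_self hr)])
  have heq : EqOn g₂ c (Icc a b) := by
    intro r hr
    rcases hr.2.eq_or_lt with hrl | hrl
    · rw [hrl, hg₂σ ⟨by linarith, by linarith⟩, he₁ ⟨hsl.le, le_rfl⟩]
    have hr1 : r ∈ Ioo (min (a - ε₀) a) (max (t + ε₀) b) :=
      ⟨lt_of_le_of_lt (min_le_left _ _) (by linarith [hr.1]), lt_of_lt_of_le hrl (le_max_right _ _)⟩
    rw [hg₂g₁ hr1]
    rcases hr.1.eq_or_lt with hr0 | hr0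
    · rw [← hr0, hg₁σ ⟨by linarith, by linarith⟩, he₀ ⟨le_rfl, ht0.le⟩]
    · rw [hg₁γ ⟨hr0, hrl⟩]
  have hfin : IsGeo n X g g₂ (Ioo (a - min ε₀ ε₁) (b + min ε₀ ε₁)) := by
    refine hg₂.mono fun r hr => ⟨?_, ?_⟩
    · refine lt_of_le_of_lt ((min_le_left _ _).trans (min_le_left _ _)) ?_
      have := min_le_left ε₀ ε₁
      linarith [hr.1]
    · refine lt_of_lt_of_le ?_ (le_max_right _ _)
      have := min_le_right ε₀ ε₁
      linarith [hr.2]
  have hmin : 0 < min ε₀ ε₁ := lt_min hε₀ hε₁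
  have haI : a ∈ Ioo (a - min ε₀ ε₁) (b + min ε₀ ε₁) := ⟨by linarith, by linarith⟩
  -- unit speed at `a`
  have hnear : g₂ =ᶠ[𝓝 a] σ₀ := by
    filter_upwards [isOpen_Ioo.mem_nhds (show a ∈ Ioo (a - ε₀) (t + ε₀) from
      ⟨by linarith, by linarith⟩)] with r hr
    have hr1 : r ∈ Ioo (min (a - ε₀) a) (max (t + ε₀) b) :=
      ⟨lt_of_le_of_lt (min_le_left _ _) hr.1, lt_of_lt_of_le hr.2 (le_max_left _ _)⟩
    rw [hg₂g₁ hr1, hg₁σ hr]
  have hua : g (g₂ a) (deriv g₂ a) (deriv g₂ a) = 1 := by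
    rw [hnear.deriv_eq, hnear.self_of_nhds]
    exact hu₀
  exact ⟨g₂, min ε₀ ε₁, hmin, hfin, heq, fun r hr => (hfin.speed_const hM hg hr haI).trans hua⟩

/-- **GEO-5** a metric line is a unit speed geodesic. -/
theorem glc_line (h : CM n X g) (hB : GlB n X g) {c : ℝ → V} (hc : IsLine X g c) :
    IsGeo n X g c univ ∧ ∀ t, g (c t) (deriv c t) (deriv c t) = 1 := by
  have key : ∀ t : ℝ, IsGeo n X g c (Ioo (t - 1) (t + 1)) ∧ g (c t) (deriv c t) (deriv c t) = 1 := by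
    intro t
    have hseg : IsSeg X g c (Icc (t - 1) (t + 1)) :=
      ⟨fun s _ => hc.1 s (mem_univ s), fun s _ s' _ => hc.2 s (mem_univ s) s' (mem_univ s')⟩
    obtain ⟨γ, ε, hε, hγ, he, hu⟩ := glc_seg h hB (by linarith) hseg
    have htI : t ∈ Ioo (t - 1) (t + 1) := ⟨by linarith, by linarith⟩
    have hnear : c =ᶠ[𝓝 t] γ := by
      filter_upwards [isOpen_Ioo.mem_nhds htI] with r hr using (he (Ioo_subset_Icc_self hr)).symm
    refine ⟨(hγ.mono fun r hr => ⟨by linarith [hr.1], by linarith [hr.2]⟩).congr fun r hr =>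
      (he (Ioo_subset_Icc_self hr)).symm, ?_⟩
    rw [hnear.deriv_eq, hnear.self_of_nhds]
    exact hu t ⟨by linarith, by linarith⟩
  exact ⟨IsGeo.of_local fun t _ => ⟨Ioo (t - 1) (t + 1), isOpen_Ioo, ⟨by linarith, by linarith⟩, (key t).1⟩,
    fun t => (key t).2⟩

end Claimed.Agent.R314
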