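import Mathlib

/-!
# Row 314, block C, package REG' : one-dimensional barrier lemmas (Mathlib only)      (helper106)

* `c1d_second_nonneg` : second order necessary condition at a local minimum.
* `c1d_concave`       : (L5) a continuous function on a convex set of `ℝ` which has at every point, for every `ε > 0`, a twice differentiable
                        upper support with second derivative `≤ ε` is concave.
* `c1d_convex`        : the mirror statement.
* `c1d_affine`, `c1d_affine_univ` : both ⟹ affine.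
* `c1d_of_contDiffAt` : `C²` functions are admissible supports (`u' = deriv u`, `u'' = deriv (deriv u) s₀`).
* `c1d_squeeze`       : (L6, first step) differentiable upper and lower supports touching at `x₀` ⟹ differentiable at `x₀`, with the same derivative.
A "twice differentiable support" is given by `u u' : ℝ → ℝ`, `u'' : ℝ` with `HasDerivAt u (u' s) s` near `s₀` and `HasDerivAt u' u'' s₀`.
-/

set_option autoImplicit false
open scoped Topology
open Set Filter

namespace Claimed.Agent.R314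

/-- second order necessary condition at a local minimum -/
theorem c1d_second_nonneg {v v' : ℝ → ℝ} {v'' s : ℝ} (h1 : ∀ᶠ t in 𝓝 s, HasDerivAt v (v' t) t)
    (h2 : HasDerivAt v' v'' s) (hmin : IsLocalMin v s) : 0 ≤ v'' := by
  by_contra hneg
  push Not at hneg
  have hd : deriv v =ᶠ[𝓝 s] v' := h1.mono fun t ht => ht.deriv
  have hdd : deriv (deriv v) s = v'' := by rw [hd.deriv_eq, h2.deriv]
  have hv0 : deriv v s = 0 := hmin.deriv_eq_zero
  have hc : ContinuousAt v s := h1.self_of_nhds.continuousAt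
  -- `-v` has a local minimum
  have hn1 : deriv (fun t => - v t) = fun t => - deriv v t := by
    funext t
    exact deriv.fun_neg
  have hn2 : deriv (deriv fun t => - v t) s = - v'' := by
    rw [hn1]
    have : deriv (fun t => - deriv v t) s = - deriv (deriv v) s := deriv.fun_neg
    rw [this, hdd]
  have hmax : IsLocalMin (fun t => - v t) s :=
    isLocalMin_of_deriv_deriv_pos (by rw [hn2]; linarith) (by rw [hn1]; simp [hv0]) hc.neg
  have hconst : v =ᶠ[𝓝 s] fun _ => v s := by
    filter_upwards [hmin, hmax] with t a b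
    linarith
  have hd0 : deriv v =ᶠ[𝓝 s] fun _ => 0 := by
    have := hconst.eventuallyEq_nhds
    filter_upwards [this] with t ht
    rw [ht.deriv_eq]
    simp
  have : deriv (deriv v) s = 0 := by
    rw [hd0.deriv_eq]
    simp
  rw [hdd] at this
  linarith

/-- **(L5)** upper supports with arbitrarily small second derivative ⟹ concave -/
theorem c1d_concave {S : Set ℝ} (hSc : Convex ℝ S) {β : ℝ → ℝ} (hβ : ContinuousOn β S)
    (hsup : ∀ s₀ ∈ S, ∀ ε : ℝ, 0 < ε → ∃ (u u' : ℝ → ℝ) (u'' : ℝ), (∀ᶠ t in 𝓝 s₀, HasDerivAt u (u' t) t) ∧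
      HasDerivAt u' u'' s₀ ∧ u'' ≤ ε ∧ u s₀ = β s₀ ∧ ∀ᶠ t in 𝓝 s₀, β t ≤ u t) :
    ConcaveOn ℝ S β := by
  refine concaveOn_of_slope_anti_adjacent hSc ?_
  intro x y z hx hz hxy hyz
  by_contra hcon
  push Not at hcon
  have hsub : Icc x z ⊆ S := hSc.ordConnected.out hx hz
  have hxz : x < z := hxy.trans hyz
  -- the chord
  set m : ℝ := (β z - β x) / (z - x) with hm
  have hzx : z - x ≠ 0 := (sub_pos.2 hxz).ne'
  have hmz : β x + m * (z - x) = β z := by
    rw [hm]; field_simp; ring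
  -- `β y` lies below the chord
  have hy : β y < β x + m * (y - x) := by
    have h1 : 0 < y - x := by linarith
    have h2 : 0 < z - y := by linarith
    have h3 : 0 < z - x := by linarith
    rw [div_lt_div_iff₀ h1 h2] at hcon
    have h4 : m * (z - x) = β z - β x := by rw [hm]; field_simp
    have h5 : (β y - β x) * (z - x) < (β z - β x) * (y - x) := by nlinarith
    have h6 : (β y - β x) * (z - x) < m * (y - x) * (z - x) := by
      calc (β y - β x) * (z - x) < (β z - β x) * (y - x) := h5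
        _ = m * (y - x) * (z - x) := by rw [← h4]; ring
    have := lt_of_mul_lt_mul_right h6 h3.le
    linarith
  -- choice of `η`
  set gap : ℝ := β x + m * (y - x) - β y with hgap
  have hgap0 : 0 < gap := by rw [hgap]; linarith
  have hq0 : 0 < (y - x) * (z - y) := mul_pos (by linarith) (by linarith)
  set η : ℝ := gap / (2 * ((y - x) * (z - y))) with hη
  have hη0 : 0 < η := by positivity
  have hηq : η * ((y - x) * (z - y)) = gap / 2 := by
    rw [hη]; field_simp
  set ψ : ℝ → ℝ := fun s => β s - (β x + m * (s - x)) - η * ((s - x) * (s - z)) with hψ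
  have hψc : ContinuousOn ψ (Icc x z) := by
    have h1 : ContinuousOn β (Icc x z) := hβ.mono hsub
    have h2 : Continuous fun s : ℝ => (β x + m * (s - x)) := by fun_prop
    have h3 : Continuous fun s : ℝ => η * ((s - x) * (s - z)) := by fun_prop
    exact (h1.sub h2.continuousOn).sub h3.continuousOn
  obtain ⟨s, hs, hsmin⟩ := isCompact_Icc.exists_isMinOn (nonempty_Icc.2 hxz.le) hψc
  have hψx : ψ x = 0 := by simp [hψ]
  have hψz : ψ z = 0 := by
    simp only [hψ, sub_self, mul_zero]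
    linarith
  have hψy : ψ y < 0 := by
    have : ψ y = - gap + η * ((y - x) * (z - y)) := by
      simp only [hψ, hgap]; ring
    rw [this, hηq]
    linarith
  have hψs : ψ s < 0 := lt_of_le_of_lt (isMinOn_iff.1 hsmin y ⟨hxy.le, hyz.le⟩) hψy
  have hsx : s ≠ x := fun h => by rw [h, hψx] at hψs; exact lt_irrefl _ hψs
  have hsz : s ≠ z := fun h => by rw [h, hψz] at hψs; exact lt_irrefl _ hψs
  have hsI : s ∈ Ioo x z := ⟨lt_of_le_of_ne hs.1 (Ne.symm hsx), lt_of_le_of_ne hs.2 hsz⟩
  obtain ⟨u, u', u'', hu1, hu2, hu3, hu4, hu5⟩ := hsup s (hsub hs) η hη0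
  -- the comparison function
  set v : ℝ → ℝ := fun t => u t - (β x + m * (t - x)) - η * ((t - x) * (t - z)) with hv
  set v' : ℝ → ℝ := fun t => u' t - m - η * ((t - x) + (t - z)) with hv'
  have hv1 : ∀ᶠ t in 𝓝 s, HasDerivAt v (v' t) t := by
    filter_upwards [hu1] with t ht
    have a1 : HasDerivAt (fun t : ℝ => β x + m * (t - x)) m t := by
      have := (((hasDerivAt_id t).sub_const x).const_mul m).const_add (β x)
      simpa using this
    have a2 : HasDerivAt (fun t : ℝ => η * ((t - x) * (t - z))) (η * ((t - x) + (t - z))) t := by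
      have b1 : HasDerivAt (fun t : ℝ => t - x) 1 t := (hasDerivAt_id t).sub_const x
      have b2 : HasDerivAt (fun t : ℝ => t - z) 1 t := (hasDerivAt_id t).sub_const z
      have := (b1.mul b2).const_mul η
      refine this.congr_deriv ?_
      ring
    exact (ht.sub a1).sub a2
  have hv2 : HasDerivAt v' (u'' - 2 * η) s := by
    have a2 : HasDerivAt (fun t : ℝ => η * ((t - x) + (t - z))) (η * (1 + 1)) s := by
      have b1 : HasDerivAt (fun t : ℝ => t - x) 1 s := (hasDerivAt_id s).sub_const x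
      have b2 : HasDerivAt (fun t : ℝ => t - z) 1 s := (hasDerivAt_id s).sub_const z
      exact (b1.add b2).const_mul η
    have := (hu2.sub_const m).sub a2
    refine this.congr_deriv ?_
    ring
  have hvmin : IsLocalMin v s := by
    have hnh : Icc x z ∈ 𝓝 s := Icc_mem_nhds hsI.1 hsI.2
    filter_upwards [hu5, hnh] with t ht htI
    have h1 : ψ s ≤ ψ t := isMinOn_iff.1 hsmin t htI
    have h2 : v s = ψ s := by simp only [hv, hψ, hu4]
    have h3 : ψ t ≤ v t := by
      simp only [hv, hψ]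
      linarith
    linarith
  have := c1d_second_nonneg hv1 hv2 hvmin
  linarith

/-- lower supports with second derivative `≥ -ε` ⟹ convex -/
theorem c1d_convex {S : Set ℝ} (hSc : Convex ℝ S) {β : ℝ → ℝ} (hβ : ContinuousOn β S)
    (hsup : ∀ s₀ ∈ S, ∀ ε : ℝ, 0 < ε → ∃ (u u' : ℝ → ℝ) (u'' : ℝ), (∀ᶠ t in 𝓝 s₀, HasDerivAt u (u' t) t) ∧
      HasDerivAt u' u'' s₀ ∧ - ε ≤ u'' ∧ u s₀ = β s₀ ∧ ∀ᶠ t in 𝓝 s₀, u t ≤ β t) :
    ConvexOn ℝ S β := by
  have h := c1d_concave hSc (β := fun s => - β s) hβ.neg ?_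
  · exact neg_concaveOn_iff.1 h
  · intro s₀ hs ε hε
    obtain ⟨u, u', u'', h1, h2, h3, h4, h5⟩ := hsup s₀ hs ε hε
    refine ⟨fun t => - u t, fun t => - u' t, - u'', h1.mono fun t ht => ht.neg, h2.neg, by linarith, by simp [h4], ?_⟩
    filter_upwards [h5] with t ht
    linarith

/-- concave and convex on a convex set of `ℝ` ⟹ affine -/
theorem c1d_affine_of {S : Set ℝ} {β : ℝ → ℝ} (h1 : ConcaveOn ℝ S β) (h2 : ConvexOn ℝ S β) :
    ∃ m c : ℝ, ∀ s ∈ S, β s = m * s + c := by
  have key : ∀ x ∈ S, ∀ y ∈ S, ∀ a b : ℝ, 0 ≤ a → 0 ≤ b → a + b = 1 → β (a * x + b * y) = a * β x + b * β y := by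
    intro x hx y hy a b ha hb hab
    have e1 := h1.2 hx hy ha hb hab
    have e2 := h2.2 hx hy ha hb hab
    simp only [smul_eq_mul] at e1 e2
    linarith
  by_cases hS : ∃ p ∈ S, ∃ q ∈ S, p < q
  · obtain ⟨p, hp, q, hq, hpq⟩ := hS
    have hqp : 0 < q - p := by linarith
    refine ⟨(β q - β p) / (q - p), β p - (β q - β p) / (q - p) * p, fun s hs => ?_⟩
    have goal : (β s - β p) * (q - p) = (β q - β p) * (s - p) → β s = (β q - β p) / (q - p) * s + (β p - (β q - β p) / (q - p) * p) := by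
      intro h
      field_simp
      linarith
    apply goal
    rcases lt_trichotomy s p with h | h | h
    · -- `p` between `s` and `q`
      have hd : 0 < q - s := by linarith
      have := key s hs q hq ((q - p) / (q - s)) ((p - s) / (q - s)) (by positivity) (div_nonneg (by linarith) hd.le)
        (by field_simp; ring)
      have e : (q - p) / (q - s) * s + (p - s) / (q - s) * q = p := by field_simp; ring
      rw [e] at this
      field_simp at this
      linarith
    · rw [h]; ring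
    · rcases le_or_gt s q with h' | h'
      · -- `s` between `p` and `q`
        have := key p hp q hq ((q - s) / (q - p)) ((s - p) / (q - p)) (div_nonneg (by linarith) hqp.le) (by positivity)
          (by field_simp; ring)
        have e : (q - s) / (q - p) * p + (s - p) / (q - p) * q = s := by field_simp; ring
        rw [e] at this
        field_simp at this
        linarith
      · -- `q` between `p` and `s`
        have hd : 0 < s - p := by linarith
        have := key p hp s hs ((s - q) / (s - p)) ((q - p) / (s - p)) (by positivity) (by positivity)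
          (by field_simp; ring)
        have e : (s - q) / (s - p) * p + (q - p) / (s - p) * s = q := by field_simp; ring
        rw [e] at this
        field_simp at this
        linarith
  · push Not at hS
    rcases S.eq_empty_or_nonempty with h | ⟨p, hp⟩
    · exact ⟨0, 0, fun s hs => by rw [h] at hs; exact absurd hs (Set.notMem_empty s)⟩
    · refine ⟨0, β p, fun s hs => ?_⟩
      have : s = p := le_antisymm (hS p hp s hs) (hS s hs p hp)
      rw [this]; ring

/-- **(L5), two-sided** -/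
theorem c1d_affine {S : Set ℝ} (hSc : Convex ℝ S) {β : ℝ → ℝ} (hβ : ContinuousOn β S)
    (hup : ∀ s₀ ∈ S, ∀ ε : ℝ, 0 < ε → ∃ (u u' : ℝ → ℝ) (u'' : ℝ), (∀ᶠ t in 𝓝 s₀, HasDerivAt u (u' t) t) ∧
      HasDerivAt u' u'' s₀ ∧ u'' ≤ ε ∧ u s₀ = β s₀ ∧ ∀ᶠ t in 𝓝 s₀, β t ≤ u t)
    (hlo : ∀ s₀ ∈ S, ∀ ε : ℝ, 0 < ε → ∃ (u u' : ℝ → ℝ) (u'' : ℝ), (∀ᶠ t in 𝓝 s₀, HasDerivAt u (u' t) t) ∧
      HasDerivAt u' u'' s₀ ∧ - ε ≤ u'' ∧ u s₀ = β s₀ ∧ ∀ᶠ t in 𝓝 s₀, u t ≤ β t) :
    ∃ m c : ℝ, ∀ s ∈ S, β s = m * s + c :=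
  c1d_affine_of (c1d_concave hSc hβ hup) (c1d_convex hSc hβ hlo)

/-- the whole line -/
theorem c1d_affine_univ {β : ℝ → ℝ} (hβ : Continuous β)
    (hup : ∀ s₀ ε : ℝ, 0 < ε → ∃ (u u' : ℝ → ℝ) (u'' : ℝ), (∀ᶠ t in 𝓝 s₀, HasDerivAt u (u' t) t) ∧
      HasDerivAt u' u'' s₀ ∧ u'' ≤ ε ∧ u s₀ = β s₀ ∧ ∀ᶠ t in 𝓝 s₀, β t ≤ u t)
    (hlo : ∀ s₀ ε : ℝ, 0 < ε → ∃ (u u' : ℝ → ℝ) (u'' : ℝ), (∀ᶠ t in 𝓝 s₀, HasDerivAt u (u' t) t) ∧
      HasDerivAt u' u'' s₀ ∧ - ε ≤ u'' ∧ u s₀ = β s₀ ∧ ∀ᶠ t in 𝓝 s₀, u t ≤ β t) :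
    ∃ m : ℝ, ∀ s, β s = β 0 + m * s := by
  obtain ⟨m, c, h⟩ := c1d_affine convex_univ hβ.continuousOn (fun s₀ _ => hup s₀) (fun s₀ _ => hlo s₀)
  refine ⟨m, fun s => ?_⟩
  rw [h s (mem_univ s), h 0 (mem_univ 0)]
  ring

/-- a `C²` function is a twice differentiable support in the sense of this file -/
theorem c1d_of_contDiffAt {u : ℝ → ℝ} {s₀ : ℝ} (h : ContDiffAt ℝ 2 u s₀) :
    (∀ᶠ t in 𝓝 s₀, HasDerivAt u (deriv u t) t) ∧ HasDerivAt (deriv u) (deriv (deriv u) s₀) s₀ := by
  constructor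
  · filter_upwards [h.eventually (by simp)] with t ht
    exact (ht.differentiableAt (by simp)).hasDerivAt
  · have h1 : ContDiffAt ℝ 1 (fderiv ℝ u) s₀ := h.fderiv_right (by norm_num)
    have h2 : ContDiffAt ℝ 1 (fun t => fderiv ℝ u t 1) s₀ := h1.clm_apply contDiffAt_const
    exact (h2.differentiableAt (by simp)).hasDerivAt

/-- **(L6), squeeze**: differentiable upper and lower supports touching at `x₀` -/
theorem c1d_squeeze {F : Type*} [NormedAddCommGroup F] [NormedSpace ℝ F] {b u l : F → ℝ} {x₀ : F} {u' l' : F →L[ℝ] ℝ}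
    (hu : HasFDerivAt u u' x₀) (hl : HasFDerivAt l l' x₀) (h1 : ∀ᶠ x in 𝓝 x₀, l x ≤ b x)
    (h2 : ∀ᶠ x in 𝓝 x₀, b x ≤ u x) (e1 : l x₀ = b x₀) (e2 : u x₀ = b x₀) :
    u' = l' ∧ HasFDerivAt b u' x₀ := by
  have hmin : IsLocalMin (fun x => u x - l x) x₀ := by
    filter_upwards [h1, h2] with x a c
    simp only [e1, e2]
    linarith
  have hd : HasFDerivAt (fun x => u x - l x) (u' - l') x₀ := hu.sub hl
  have h0 : u' - l' = 0 := hmin.hasFDerivAt_eq_zero hd
  have heq : u' = l' := sub_eq_zero.1 h0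
  refine ⟨heq, ?_⟩
  rw [heq] at hu ⊢
  refine HasFDerivAt.of_isLittleO (Asymptotics.isLittleO_iff.2 fun c hc => ?_)
  have a1 := Asymptotics.isLittleO_iff.1 hu.isLittleO hc
  have a2 := Asymptotics.isLittleO_iff.1 hl.isLittleO hc
  filter_upwards [a1, a2, h1, h2] with x b1 b2 b3 b4
  rw [Real.norm_eq_abs, abs_le] at b1 b2 ⊢
  rw [e2] at b1
  rw [e1] at b2
  constructor <;> linarith [b1.1, b1.2, b2.1, b2.2]

end Claimed.Agent.R314
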