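import Mathlib

/-!
# Row 314, block C, package REG' : the one-dimensional core of "curvature vanishes along lines" (Mathlib only)      (helper106)

`c1d_index_zero` : continuous functions `k i : ℝ → ℝ` (`i : Fin n`) with `∑ i, k i t ≥ 0` which satisfy the index inequality
`∫_a^b f² k_i ≤ ∫_a^b f'²` for all smooth `f` with `f a = f b = 0`, on all segments, vanish identically.
-/

set_option autoImplicit false
open scoped Topology ContDiff
open Set Filter MeasureTheory

namespace Claimed.Agent.R314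

/-- a quadratic polynomial in `t` without constant term which is nonnegative has no linear term -/
theorem c1d_quad_lin {J A : ℝ} (h : ∀ t : ℝ, 0 ≤ - (2 * t * J) + t ^ 2 * A) : J = 0 := by
  by_contra hJ
  have hJ2 : 0 < J ^ 2 := by positivity
  set s : ℝ := 1 / (|A| + 1) with hs
  have hs0 : 0 < s := by positivity
  have hsA : s * A ≤ 1 := by
    have h1 : s * A ≤ s * |A| := mul_le_mul_of_nonneg_left (le_abs_self A) hs0.le
    have h2 : s * |A| ≤ 1 := by
      rw [hs, one_div, inv_mul_le_iff₀ (by positivity)]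
      linarith
    linarith
  have := h (s * J)
  have e : - (2 * (s * J) * J) + (s * J) ^ 2 * A = s * J ^ 2 * (s * A - 2) := by ring
  rw [e] at this
  have h3 : s * J ^ 2 * (s * A - 2) < 0 := mul_neg_of_pos_of_neg (by positivity) (by linarith)
  linarith

/-- smooth cut-off functions with small energy -/
theorem c1d_cutoff : ∃ M : ℝ, 0 ≤ M ∧ ∀ L : ℝ, 0 < L → ∃ f : ℝ → ℝ, ContDiff ℝ ∞ f ∧ (∀ t, |t| < L → f =ᶠ[𝓝 t] fun _ => 1) ∧
    (∀ t, 2 * L ≤ |t| → f t = 0) ∧ ∀ t, |deriv f t| ≤ M / L := by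
  obtain ⟨g, hg, hgc, hg1, hg0⟩ : ∃ g : ℝ → ℝ, ContDiff ℝ ∞ g ∧ HasCompactSupport g ∧ (∀ x, |x| ≤ 1 → g x = 1) ∧
      ∀ x, 2 ≤ |x| → g x = 0 := by
    let φ : ContDiffBump (0 : ℝ) := ⟨1, 2, one_pos, by norm_num⟩
    refine ⟨φ, φ.contDiff, φ.hasCompactSupport, fun x hx => ?_, fun x hx => ?_⟩
    · refine φ.one_of_mem_closedBall ?_
      rw [mem_closedBall_zero_iff, Real.norm_eq_abs]
      exact hx
    · refine φ.zero_of_le_dist ?_
      rw [dist_zero_right, Real.norm_eq_abs]
      exact hx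
  have hd : Continuous (deriv g) := hg.continuous_deriv (by simp)
  have hc : HasCompactSupport (deriv g) := hgc.deriv
  obtain ⟨M, hM⟩ := hd.bounded_above_of_compact_support hc
  have hM0 : 0 ≤ M := (norm_nonneg _).trans (hM 0)
  refine ⟨M, hM0, fun L hL => ⟨fun t => g (t / L), ?_, ?_, ?_, ?_⟩⟩
  · exact hg.comp (contDiff_id.div_const L)
  · intro t ht
    have h1 : ∀ᶠ s in 𝓝 t, |s| < L := (continuous_abs.tendsto t).eventually (gt_mem_nhds ht)
    filter_upwards [h1] with s hs
    refine hg1 _ ?_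
    rw [abs_div, abs_of_pos hL, div_le_iff₀ hL]
    linarith
  · intro t ht
    refine hg0 _ ?_
    rw [abs_div, abs_of_pos hL, le_div_iff₀ hL]
    exact ht
  · intro t
    have h1 : HasDerivAt (fun t : ℝ => g (t / L)) (deriv g (t / L) * (1 / L)) t := by
      have a1 : HasDerivAt g (deriv g (t / L)) (t / L) := (hg.differentiable (by simp) _).hasDerivAt
      have a2 : HasDerivAt (fun t : ℝ => t / L) (1 / L) t := (hasDerivAt_id t).div_const L
      exact a1.comp t a2
    rw [h1.deriv, abs_mul, abs_of_pos (by positivity : 0 < 1 / L), mul_one_div]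
    exact div_le_div_of_nonneg_right (hM _) hL.le

/-- the weak form: `∫ χ k_i = 0` for all test functions -/
theorem c1d_index_weak {n : ℕ} (k : Fin n → ℝ → ℝ) (hk : ∀ i, Continuous (k i)) (hsum : ∀ t, 0 ≤ ∑ i, k i t)
    (hidx : ∀ i, ∀ a b : ℝ, a < b → ∀ f : ℝ → ℝ, ContDiff ℝ ∞ f → f a = 0 → f b = 0 →
      ∫ t in a..b, f t ^ 2 * k i t ≤ ∫ t in a..b, deriv f t ^ 2)
    (i : Fin n) (χ : ℝ → ℝ) (hχ : ContDiff ℝ ∞ χ) (hχc : HasCompactSupport χ) : ∫ t, χ t * k i t = 0 := by
  obtain ⟨M, hM0, hcut⟩ := c1d_cutoff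
  -- the support of `χ`
  obtain ⟨L0, hL0, hχ0⟩ : ∃ L0 : ℝ, 0 < L0 ∧ ∀ t, L0 ≤ |t| → χ t = 0 := by
    obtain ⟨r, hr⟩ := hχc.isCompact.isBounded.subset_closedBall (0 : ℝ)
    refine ⟨max r 0 + 1, by positivity, fun t ht => ?_⟩
    by_contra hne
    have h1 : t ∈ tsupport χ := subset_tsupport _ hne
    have h2 := hr h1
    rw [mem_closedBall_zero_iff, Real.norm_eq_abs] at h2
    have := le_max_left r 0
    linarith
  have hχ0' : ∀ t, L0 < |t| → χ =ᶠ[𝓝 t] fun _ => 0 := by
    intro t ht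
    have h1 : ∀ᶠ s in 𝓝 t, L0 < |s| := (continuous_abs.tendsto t).eventually (lt_mem_nhds ht)
    filter_upwards [h1] with s hs
    exact hχ0 s hs.le
  have hdχ : Continuous (deriv χ) := hχ.continuous_deriv (by simp)
  -- the three whole line integrals as interval integrals
  have hw : ∀ (F : ℝ → ℝ), (∀ t, L0 < |t| → F t = 0) → ∀ R : ℝ, L0 < R → ∫ t in (-R)..R, F t = ∫ t, F t := by
    intro F hF R hR
    refine intervalIntegral.integral_eq_integral_of_support_subset fun t ht => ?_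
    have h1 : |t| ≤ L0 := by
      by_contra hcon
      push Not at hcon
      exact ht (hF t hcon)
    have := abs_le.1 h1
    exact ⟨by linarith [this.1], by linarith [this.2]⟩
  set J : ℝ := ∫ t, χ t * k i t with hJ
  set A : ℝ := (∫ t, deriv χ t ^ 2) - ∫ t, χ t ^ 2 * k i t with hA
  refine c1d_quad_lin (A := A) fun s => ?_
  refine le_of_forall_pos_le_add fun ε hε => ?_
  -- the scale
  set L : ℝ := max (L0 + 1) (4 * n * M ^ 2 / ε + 1) with hL
  have hL1 : L0 + 1 ≤ L := le_max_left _ _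
  have hL2 : 4 * n * M ^ 2 / ε + 1 ≤ L := le_max_right _ _
  have hLpos : 0 < L := by linarith
  have hLε : 4 * n * M ^ 2 / L ≤ ε := by
    rw [div_le_iff₀ hLpos]
    have h1 : 4 * n * M ^ 2 / ε ≤ L := by linarith
    rw [div_le_iff₀ hε] at h1
    linarith
  obtain ⟨f, hf, hf1, hf0, hfd⟩ := hcut L hLpos
  have hdf : Continuous (deriv f) := hf.continuous_deriv (by simp)
  set R : ℝ := 2 * L with hR
  have hRpos : 0 < R := by positivity
  have hRL0 : L0 < R := by rw [hR]; linarith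
  have hab : -R < R := by linarith
  -- pointwise facts
  have hpt : ∀ t, deriv f t * deriv χ t = 0 ∧ f t * χ t = χ t := by
    intro t
    rcases lt_or_ge |t| L with h | h
    · have e := hf1 t h
      have e1 : deriv f t = 0 := by rw [e.deriv_eq]; simp
      have e2 : f t = 1 := e.self_of_nhds
      rw [e1, e2]; simp
    · have e := hχ0' t (by linarith)
      have e1 : deriv χ t = 0 := by rw [e.deriv_eq]; simp
      have e2 : χ t = 0 := e.self_of_nhds
      rw [e1, e2]; simp
  -- the trial function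
  set h : ℝ → ℝ := fun t => f t + s * χ t with hh
  have hhs : ContDiff ℝ ∞ h := hf.add (contDiff_const.mul hχ)
  have hfR : ∀ t, |t| = R → f t = 0 ∧ χ t = 0 := fun t ht =>
    ⟨hf0 t (by rw [ht]), hχ0 t (by rw [ht]; exact hRL0.le)⟩
  have hR1 : |(-R)| = R := by rw [abs_neg, abs_of_pos hRpos]
  have hR2 : |R| = R := abs_of_pos hRpos
  have hdh : ∀ t, deriv h t = deriv f t + s * deriv χ t := by
    intro t
    have a1 : HasDerivAt f (deriv f t) t := (hf.differentiable (by simp) t).hasDerivAt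
    have a2 : HasDerivAt χ (deriv χ t) t := (hχ.differentiable (by simp) t).hasDerivAt
    exact (a1.add (a2.const_mul s)).deriv
  have key := hidx i (-R) R hab h hhs (by simp only [hh, (hfR _ hR1).1, (hfR _ hR1).2]; ring)
    (by simp only [hh, (hfR _ hR2).1, (hfR _ hR2).2]; ring)
  -- integrability
  have ii : ∀ F : ℝ → ℝ, Continuous F → IntervalIntegrable F volume (-R) R := fun F hF => hF.intervalIntegrable _ _
  have c1 : Continuous fun t => deriv f t ^ 2 := hdf.pow 2
  have c2 : Continuous fun t => deriv χ t ^ 2 := hdχ.pow 2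
  have c3 : ∀ j, Continuous fun t => f t ^ 2 * k j t := fun j => (hf.continuous.pow 2).mul (hk j)
  have c4 : Continuous fun t => χ t * k i t := hχ.continuous.mul (hk i)
  have c5 : Continuous fun t => χ t ^ 2 * k i t := (hχ.continuous.pow 2).mul (hk i)
  -- expansion of the two sides
  have e1 : ∫ t in (-R)..R, deriv h t ^ 2 = (∫ t in (-R)..R, deriv f t ^ 2) + s ^ 2 * ∫ t in (-R)..R, deriv χ t ^ 2 := by
    rw [← intervalIntegral.integral_const_mul, ← intervalIntegral.integral_add (ii _ c1) (ii _ (c2.const_mul (s ^ 2)))]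
    refine intervalIntegral.integral_congr fun t _ => ?_
    simp only [hdh]
    have := (hpt t).1
    linear_combination (2 * s) * this
  have e2 : ∫ t in (-R)..R, h t ^ 2 * k i t = (∫ t in (-R)..R, f t ^ 2 * k i t) + 2 * s * (∫ t in (-R)..R, χ t * k i t)
      + s ^ 2 * ∫ t in (-R)..R, χ t ^ 2 * k i t := by
    have c6 : Continuous fun t => f t ^ 2 * k i t + 2 * s * (χ t * k i t) := (c3 i).add (c4.const_mul (2 * s))
    rw [← intervalIntegral.integral_const_mul, ← intervalIntegral.integral_const_mul,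
      ← intervalIntegral.integral_add (ii _ (c3 i)) (ii _ (c4.const_mul (2 * s))),
      ← intervalIntegral.integral_add (ii _ c6) (ii _ (c5.const_mul (s ^ 2)))]
    refine intervalIntegral.integral_congr fun t _ => ?_
    simp only [hh]
    have := (hpt t).2
    linear_combination (2 * s * k i t) * this
  -- whole line integrals
  have w1 : ∫ t in (-R)..R, χ t * k i t = J := hw _ (fun t ht => by rw [hχ0 t ht.le, zero_mul]) R hRL0
  have w2 : ∫ t in (-R)..R, χ t ^ 2 * k i t = ∫ t, χ t ^ 2 * k i t :=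
    hw _ (fun t ht => by rw [hχ0 t ht.le]; ring) R hRL0
  have w3 : ∫ t in (-R)..R, deriv χ t ^ 2 = ∫ t, deriv χ t ^ 2 :=
    hw _ (fun t ht => by rw [(hχ0' t ht).deriv_eq]; simp) R hRL0
  -- the index form of the cut-off is small
  have q0 : ∀ j, 0 ≤ (∫ t in (-R)..R, deriv f t ^ 2) - ∫ t in (-R)..R, f t ^ 2 * k j t := fun j =>
    sub_nonneg.2 (hidx j (-R) R hab f hf (hfR _ hR1).1 (hfR _ hR2).1)
  have q1 : (∫ t in (-R)..R, deriv f t ^ 2) - ∫ t in (-R)..R, f t ^ 2 * k i t ≤ n * ∫ t in (-R)..R, deriv f t ^ 2 := by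
    have a1 := Finset.single_le_sum (f := fun j => (∫ t in (-R)..R, deriv f t ^ 2) - ∫ t in (-R)..R, f t ^ 2 * k j t)
      (fun j _ => q0 j) (Finset.mem_univ i)
    have a2 : ∑ j, ((∫ t in (-R)..R, deriv f t ^ 2) - ∫ t in (-R)..R, f t ^ 2 * k j t)
        = n * (∫ t in (-R)..R, deriv f t ^ 2) - ∫ t in (-R)..R, f t ^ 2 * ∑ j, k j t := by
      rw [Finset.sum_sub_distrib, Finset.sum_const, Finset.card_univ, Fintype.card_fin, nsmul_eq_mul,
        ← intervalIntegral.integral_finsetSum fun j _ => ii _ (c3 j)]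
      simp only [Finset.mul_sum]
    have a3 : 0 ≤ ∫ t in (-R)..R, f t ^ 2 * ∑ j, k j t :=
      intervalIntegral.integral_nonneg hab.le fun t _ => mul_nonneg (sq_nonneg _) (hsum t)
    linarith
  have q2 : ∫ t in (-R)..R, deriv f t ^ 2 ≤ 4 * M ^ 2 / L := by
    have a1 : ∫ t in (-R)..R, deriv f t ^ 2 ≤ ∫ _t in (-R)..R, (M / L) ^ 2 := by
      refine intervalIntegral.integral_mono_on hab.le (ii _ c1) (ii _ continuous_const) fun t _ => ?_
      rw [← sq_abs]
      exact pow_le_pow_left₀ (abs_nonneg _) (hfd t) 2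
    rw [intervalIntegral.integral_const, smul_eq_mul] at a1
    have a2 : (R - -R) * (M / L) ^ 2 = 4 * M ^ 2 / L := by
      rw [hR]; field_simp; ring
    linarith
  have q3 : (n : ℝ) * ∫ t in (-R)..R, deriv f t ^ 2 ≤ ε := by
    have : (n : ℝ) * ∫ t in (-R)..R, deriv f t ^ 2 ≤ n * (4 * M ^ 2 / L) :=
      mul_le_mul_of_nonneg_left q2 (Nat.cast_nonneg n)
    have e : (n : ℝ) * (4 * M ^ 2 / L) = 4 * n * M ^ 2 / L := by ring
    linarith
  rw [e1, e2, w1, w2, w3] at key
  rw [hA]
  nlinarith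

/-- **(R1), one-dimensional core** -/
theorem c1d_index_zero {n : ℕ} (k : Fin n → ℝ → ℝ) (hk : ∀ i, Continuous (k i)) (hsum : ∀ t, 0 ≤ ∑ i, k i t)
    (hidx : ∀ i, ∀ a b : ℝ, a < b → ∀ f : ℝ → ℝ, ContDiff ℝ ∞ f → f a = 0 → f b = 0 →
      ∫ t in a..b, f t ^ 2 * k i t ≤ ∫ t in a..b, deriv f t ^ 2) :
    ∀ i t, k i t = 0 := by
  intro i
  have h1 : ∀ᵐ t : ℝ, k i t = 0 := by
    refine ae_eq_zero_of_integral_contDiff_smul_eq_zero (hk i).locallyIntegrable fun g hg hgc => ?_
    simp only [smul_eq_mul]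
    exact c1d_index_weak k hk hsum hidx i g hg hgc
  have h2 : k i = fun _ => 0 := ((hk i).ae_eq_iff_eq volume continuous_const).1 h1
  intro t
  rw [h2]

end Claimed.Agent.R314
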